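import Vale.Agent.Lib.P314.Defs

/-! MODULE Hit. Calculus of `Few` and `HitProp`: closure under products and the extraction of a good point. Paper proof:
`Few` of a disjunction adds (split `Z` by which alternative holds, `Finset.filter`). `HitProp.mul`: `l = l₁ + l₂`, `E s = E₁ s * E₂ (s + l₁)`. Matrix product:
`(g₁ g₂) (s, t) = ∑ m, g₁ (s, m) * g₂ (m, t)`. If `t < s + l₁ + l₂`, every term vanishes (`m < s + l₁` or `t < m + l₂`). If `t = s + l₁ + l₂`, only `m = s + l₁`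
survives, and this `m` is a valid index since `m ≤ t`. `good₁ r := good₁¹ r ∧ good₁² r`, for `g₂` take the shift `s + l₁`; similarly `good₂`; `Q = Q₁ * Q₂`, `natDegree_mul_le`.
`HitProp.one`: `l = 0`, `E = 1`, `evalAt` of `1` is the identity matrix, `Q = 1`, good predicates `True`.
`exists_ne`: `Z = range B₁` cannot be all bad since `c₁ < B₁`, similarly `r'`; `Q ≠ 0` has at most `natDegree ≤ l ≤ D` roots, so `τ ∈ range (D + 1)` exists with `Q.eval τ ≠ 0` (Polynomial.card_roots', cast injective).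
Take `s = 0`, `t = l` in `Lead.lead`. -/

namespace Vale.Agent.Lib.P314

theorem Few.mono {bad bad' : ℕ → Prop} {c c' : ℕ} (h : Few bad c) (hb : ∀ r, bad' r → bad r)
    (hc : c ≤ c') : Few bad' c' := by
  intro Z hZ
  exact (h Z (fun r hr => hb r (hZ r hr))).trans hc

theorem Few.or {bad bad' : ℕ → Prop} {c c' : ℕ} (h : Few bad c) (h' : Few bad' c') :
    Few (fun r => bad r ∨ bad' r) (c + c') := by
  classical
  intro Z hZ
  have h1 := h (Z.filter bad) (fun r hr => (Finset.mem_filter.1 hr).2)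
  have h2 := h' (Z.filter (fun r => ¬ bad r)) (fun r hr => by
    have hr' := Finset.mem_filter.1 hr
    exact (hZ r hr'.1).resolve_left hr'.2)
  have h3 := Finset.card_filter_add_card_filter_not (s := Z) bad
  omega

theorem Few.exists_not {bad : ℕ → Prop} {c B : ℕ} (h : Few bad c) (hB : c < B) :
    ∃ r, r < B ∧ ¬ bad r := by
  by_contra hcon
  push Not at hcon
  have h1 := h (Finset.range B) (fun r hr => hcon r (Finset.mem_range.1 hr))
  rw [Finset.card_range] at h1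
  omega

theorem HitProp.one {n : ℕ} (D : ℕ) : HitProp (n := n) D 1 0 0 0 := by
  refine ⟨0, le_rfl, fun _ => 1, ⟨?_, ?_⟩, ?_⟩
  · intro y s t hst
    have hne : s ≠ t := by
      intro h
      rw [h] at hst
      omega
    rw [map_one, Matrix.one_apply_ne hne]
  · intro y s t hst
    have he : s = t := Fin.ext (by omega)
    rw [map_one, he, Matrix.one_apply_eq, map_one]
  · intro s
    refine ⟨fun _ => True, ?_, ?_⟩
    · intro Z hZ
      have : Z = ∅ := Finset.eq_empty_of_forall_notMem (fun r hr => hZ r hr trivial)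
      simp [this]
    · intro r _
      refine ⟨fun _ => True, ?_, ?_⟩
      · intro Z hZ
        have : Z = ∅ := Finset.eq_empty_of_forall_notMem (fun r hr => hZ r hr trivial)
        simp [this]
      · intro r' _
        refine ⟨1, one_ne_zero, by simp, ?_⟩
        intro τ
        simp

theorem HitProp.mul {n D : ℕ} {g₁ g₂ : NC n} {k₁ k₂ c₁ c₂ c₁' c₂' : ℕ}
    (h₁ : HitProp D g₁ k₁ c₁ c₂) (h₂ : HitProp D g₂ k₂ c₁' c₂') :
    HitProp D (g₁ * g₂) (k₁ + k₂) (c₁ + c₁') (c₂ + c₂') := by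
  obtain ⟨l₁, hl₁, E₁, hE₁, hQ₁⟩ := h₁
  obtain ⟨l₂, hl₂, E₂, hE₂, hQ₂⟩ := h₂
  refine ⟨l₁ + l₂, add_le_add hl₁ hl₂, fun s => E₁ s * E₂ (s + l₁), ⟨?_, ?_⟩, ?_⟩
  · intro y s t hst
    rw [map_mul, Matrix.mul_apply]
    refine Finset.sum_eq_zero (fun m _ => ?_)
    by_cases hm : (m : ℕ) < s + l₁
    · rw [hE₁.band y s m hm, zero_mul]
    · rw [hE₂.band y m t (by omega), mul_zero]
  · intro y s t hst
    have hm : (s : ℕ) + l₁ < D + 1 := by
      have := t.2
      omega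
    rw [map_mul, Matrix.mul_apply,
      Finset.sum_eq_single (⟨(s : ℕ) + l₁, hm⟩ : Fin (D + 1))]
    · rw [hE₁.lead y s ⟨(s : ℕ) + l₁, hm⟩ rfl, hE₂.lead y ⟨(s : ℕ) + l₁, hm⟩ t (by simp; omega),
        map_mul]
    · intro m _ hne
      have hne' : (m : ℕ) ≠ s + l₁ := fun h => hne (Fin.ext h)
      by_cases hlt : (m : ℕ) < s + l₁
      · rw [hE₁.band y s m hlt, zero_mul]
      · rw [hE₂.band y m t (by omega), mul_zero]
    · intro h
      exact absurd (Finset.mem_univ _) h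
  · intro s
    obtain ⟨a₁, fa₁, sa₁⟩ := hQ₁ s
    obtain ⟨a₂, fa₂, sa₂⟩ := hQ₂ (s + l₁)
    refine ⟨fun r => a₁ r ∧ a₂ r,
      Few.mono (Few.or fa₁ fa₂) (fun r hr => by
        by_cases h : a₁ r
        · exact Or.inr (fun h' => hr ⟨h, h'⟩)
        · exact Or.inl h) le_rfl, ?_⟩
    rintro r ⟨hr₁, hr₂⟩
    obtain ⟨b₁, fb₁, sb₁⟩ := sa₁ r hr₁
    obtain ⟨b₂, fb₂, sb₂⟩ := sa₂ r hr₂
    refine ⟨fun r' => b₁ r' ∧ b₂ r',
      Few.mono (Few.or fb₁ fb₂) (fun r hr => by
        by_cases h : b₁ r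
        · exact Or.inr (fun h' => hr ⟨h, h'⟩)
        · exact Or.inl h) le_rfl, ?_⟩
    rintro r' ⟨hr₁', hr₂'⟩
    obtain ⟨Q₁, hQ₁0, hQ₁d, hQ₁e⟩ := sb₁ r' hr₁'
    obtain ⟨Q₂, hQ₂0, hQ₂d, hQ₂e⟩ := sb₂ r' hr₂'
    refine ⟨Q₁ * Q₂, mul_ne_zero hQ₁0 hQ₂0,
      Polynomial.natDegree_mul_le.trans (add_le_add hQ₁d hQ₂d), ?_⟩
    intro τ
    rw [Polynomial.eval_mul, hQ₁e τ, hQ₂e τ, map_mul]

theorem HitProp.exists_ne {n D k c₁ c₂ B₁ B₂ : ℕ} {f : NC n} (h : HitProp D f k c₁ c₂)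
    (hk : k ≤ D) (h₁ : c₁ < B₁) (h₂ : c₂ < B₂) :
    ∃ r, r < B₁ ∧ ∃ r', r' < B₂ ∧ ∃ τ, τ ≤ D ∧ evalAt D (genY n r r' τ) f ≠ 0 := by
  classical
  obtain ⟨l, hl, E, hE, hQ⟩ := h
  obtain ⟨a, fa, sa⟩ := hQ 0
  obtain ⟨r, hr, hra⟩ := fa.exists_not h₁
  have hra' : a r := not_not.1 hra
  obtain ⟨b, fb, sb⟩ := sa r hra'
  obtain ⟨r', hr', hrb⟩ := fb.exists_not h₂
  have hrb' : b r' := not_not.1 hrb
  obtain ⟨Q, hQ0, hQd, hQe⟩ := sb r' hrb'
  refine ⟨r, hr, r', hr', ?_⟩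
  have hτ : ∃ τ : ℕ, τ ≤ D ∧ Q.eval (τ : ℚ) ≠ 0 := by
    by_contra hcon
    push Not at hcon
    apply hQ0
    apply Polynomial.eq_zero_of_natDegree_lt_card_of_eval_eq_zero' Q
      ((Finset.range (D + 1)).image (fun i : ℕ => (i : ℚ)))
    · intro i hi
      obtain ⟨τ, hτ, rfl⟩ := Finset.mem_image.1 hi
      exact hcon τ (by have := Finset.mem_range.1 hτ; omega)
    · rw [Finset.card_image_of_injective _ Nat.cast_injective, Finset.card_range]
      omega
  obtain ⟨τ, hτD, hτ0⟩ := hτ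
  refine ⟨τ, hτD, ?_⟩
  intro hzero
  have hlD : l < D + 1 := by omega
  have h3 := hE.lead (genY n r r' τ) (0 : Fin (D + 1)) ⟨l, hlD⟩ (by simp)
  rw [hzero] at h3
  apply hτ0
  rw [hQe τ]
  simpa using h3.symm

/-- The polynomial in `τ` of a multivariate polynomial along the line `α + τ β`: its value at `τ`, its degree. -/
theorem exists_linePoly {σ : Type*} (G : MvPolynomial σ ℚ) (α β : σ → ℚ) :
    ∃ Q : Polynomial ℚ, Q.natDegree ≤ G.totalDegree ∧ ∀ τ : ℚ,
      Q.eval τ = MvPolynomial.eval (fun i => α i + τ * β i) G := by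
  refine ⟨MvPolynomial.aeval (fun i => Polynomial.C (α i) + Polynomial.X * Polynomial.C (β i)) G, ?_, ?_⟩
  · have := MvPolynomial.aeval_natDegree_le (m := G.totalDegree) (n := 1) G le_rfl
      (fun i => Polynomial.C (α i) + Polynomial.X * Polynomial.C (β i)) (fun i => by
        compute_degree)
    simpa using this
  · intro τ
    induction G using MvPolynomial.induction_on with
    | C a => simp
    | add p q hp hq => rw [map_add, map_add, Polynomial.eval_add, hp, hq]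
    | mul_X p i hp =>
      simp only [map_mul, MvPolynomial.aeval_X, MvPolynomial.eval_X, Polynomial.eval_mul, hp]
      congr 1
      simp only [Polynomial.eval_add, Polynomial.eval_C, Polynomial.eval_mul, Polynomial.eval_X]

end Vale.Agent.Lib.P314
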