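import Vale.Agent.Lib.P314.Defs

/-! MODULE ExpSum. Exponential sums with distinct positive bases have few zeros. PROOF. (1) `exp_sum_zeros`:
induction on `S`. Real function `h x = ∑ c i * rpow (b i) x`. Divide by `rpow (b i₀) x` for one `i₀ ∈ S`: the function
`∑ c i * rpow (b i / b i₀) x` has the same zeros, the term `i₀` is the constant `c i₀`. Rolle between consecutive zeros
(induction on the Finset of zeros: take the largest zero) gives `card Z - 1` zeros of the derivative, which is
`∑_{i ≠ i₀} (c i * log (b i / b i₀)) * rpow (b i / b i₀) x`, with one term less, distinct positive bases and `log ≠ 0`. By induction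
all `c i`, `i ≠ i₀` vanish, then `c i₀ = 0` since `Z` is nonempty. (2) `few_zeros`: `eval (P^r) G = ∑_{m ∈ support} coeff m * (∏ P i ^ m i)^r`
and `m ↦ ∏ P i ^ m i` is injective on finitely supported functions since the `P i` are distinct primes (Nat.factorization). -/

open MvPolynomial

namespace Vale.Agent.Lib.P314

/-- Rolle on a finite set of zeros: a continuous function with `Z` zeros has a derivative with at
least `card Z - 1` zeros, all below the largest zero. -/
private theorem rolle_finset (g : ℝ → ℝ) (hg : Continuous g) (Z : Finset ℝ) (h0 : ∀ x ∈ Z, g x = 0) :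
    ∃ Z' : Finset ℝ, Z.card ≤ Z'.card + 1 ∧ (∀ x ∈ Z', deriv g x = 0) ∧
      ∀ x ∈ Z', ∃ y ∈ Z, x < y := by
  induction Z using Finset.induction_on_max with
  | empty => exact ⟨∅, by simp, by simp, by simp⟩
  | insert a s ha ih =>
    have h0s : ∀ x ∈ s, g x = 0 := fun x hx => h0 x (Finset.mem_insert_of_mem hx)
    obtain ⟨Z', hc, hd, hlt⟩ := ih h0s
    have hga : g a = 0 := h0 a (Finset.mem_insert_self _ _)
    have hna : a ∉ s := fun h => lt_irrefl _ (ha a h)
    by_cases hs : s.Nonempty
    · set m := s.max' hs with hm
      have hms : m ∈ s := Finset.max'_mem s hs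
      have hma : m < a := ha m hms
      obtain ⟨ξ, hξ, hξ0⟩ := exists_deriv_eq_zero hma hg.continuousOn (by rw [h0s m hms, hga])
      have hξZ : ξ ∉ Z' := by
        intro hmem
        obtain ⟨y, hy, hlt'⟩ := hlt ξ hmem
        have : y ≤ m := Finset.le_max' s y hy
        have := hξ.1
        linarith
      refine ⟨insert ξ Z', ?_, ?_, ?_⟩
      · rw [Finset.card_insert_of_notMem hξZ, Finset.card_insert_of_notMem hna]
        omega
      · intro x hx
        rcases Finset.mem_insert.mp hx with rfl | hx
        · exact hξ0
        · exact hd x hx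
      · intro x hx
        rcases Finset.mem_insert.mp hx with rfl | hx
        · exact ⟨a, Finset.mem_insert_self _ _, hξ.2⟩
        · obtain ⟨y, hy, hlt'⟩ := hlt x hx
          exact ⟨y, Finset.mem_insert_of_mem hy, hlt'⟩
    · rw [Finset.not_nonempty_iff_eq_empty] at hs
      subst hs
      exact ⟨∅, by simp, by simp, by simp⟩

/-- A real exponential sum with `S.card` distinct positive bases and at least `S.card` distinct real zeros is trivial. -/
theorem exp_sum_zeros {ι : Type*} (S : Finset ι) (b : ι → ℝ) (hb : ∀ i ∈ S, 0 < b i)
    (hinj : Set.InjOn b S) (c : ι → ℝ) (Z : Finset ℝ) (hZ : S.card ≤ Z.card)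
    (h0 : ∀ x ∈ Z, ∑ i ∈ S, c i * Real.rpow (b i) x = 0) : ∀ i ∈ S, c i = 0 := by
  classical
  induction S using Finset.induction_on generalizing b c Z with
  | empty => simp
  | insert a s ha ih =>
    have hba : 0 < b a := hb a (Finset.mem_insert_self _ _)
    have hbs : ∀ i ∈ s, 0 < b i := fun i hi => hb i (Finset.mem_insert_of_mem hi)
    -- the divided function
    let g : ℝ → ℝ := fun x => c a + ∑ i ∈ s, c i * (b i / b a) ^ x
    have hbd : ∀ i ∈ s, 0 < b i / b a := fun i hi => div_pos (hbs i hi) hba
    have hder : ∀ x, HasDerivAt g (∑ i ∈ s, c i * ((b i / b a) ^ x * Real.log (b i / b a))) x := by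
      intro x
      have : HasDerivAt (fun y => ∑ i ∈ s, c i * (b i / b a) ^ y)
          (∑ i ∈ s, c i * ((b i / b a) ^ x * Real.log (b i / b a))) x := by
        apply HasDerivAt.fun_sum
        intro i hi
        exact ((Real.hasStrictDerivAt_const_rpow (hbd i hi) x).hasDerivAt).const_mul (c i)
      exact this.const_add (c a)
    have hcont : Continuous g :=
      continuous_iff_continuousAt.mpr fun x => (hder x).continuousAt
    have hgz : ∀ x ∈ Z, g x = 0 := by
      intro x hx
      have h := h0 x hx
      rw [Finset.sum_insert ha] at h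
      have hpos : 0 < b a ^ x := Real.rpow_pos_of_pos hba x
      have : g x * b a ^ x = 0 := by
        simp only [g, add_mul, Finset.sum_mul]
        have hterm : ∀ i ∈ s, c i * (b i / b a) ^ x * b a ^ x = c i * Real.rpow (b i) x := by
          intro i hi
          rw [Real.div_rpow (hbs i hi).le hba.le, Real.rpow_eq_pow]
          field_simp
        rw [Finset.sum_congr rfl hterm]
        simpa using h
      exact (mul_eq_zero.mp this).resolve_right hpos.ne'
    obtain ⟨Z', hcard, hdz, -⟩ := rolle_finset g hcont Z hgz
    have hcardS : (insert a s).card = s.card + 1 := Finset.card_insert_of_notMem ha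
    have hlog : ∀ i ∈ s, Real.log (b i / b a) ≠ 0 := by
      intro i hi
      refine Real.log_ne_zero_of_pos_of_ne_one (hbd i hi) ?_
      intro hone
      have hbi : b i = b a := by
        have := hba.ne'
        field_simp at hone
        exact hone
      have : i = a := hinj (Finset.mem_insert_of_mem hi) (Finset.mem_insert_self _ _) hbi
      exact ha (this ▸ hi)
    have key := ih (fun i => b i / b a) hbd
      (by
        intro i hi j hj hij
        have hne := hba.ne'
        have : b i = b j := by
          have h' : b i / b a = b j / b a := hij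
          field_simp at h'
          exact h'
        exact hinj (Finset.mem_insert_of_mem (Finset.mem_coe.mp hi))
          (Finset.mem_insert_of_mem (Finset.mem_coe.mp hj)) this)
      (fun i => c i * Real.log (b i / b a)) Z' (by omega)
      (by
        intro x hx
        have := hdz x hx
        rw [(hder x).deriv] at this
        rw [← this]
        refine Finset.sum_congr rfl fun i _ => ?_
        rw [Real.rpow_eq_pow]
        ring)
    have hcs : ∀ i ∈ s, c i = 0 := by
      intro i hi
      exact (mul_eq_zero.mp (key i hi)).resolve_right (hlog i hi)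
    have hne : Z.Nonempty := by
      rw [← Finset.card_pos]
      omega
    obtain ⟨x, hx⟩ := hne
    have hca : c a = 0 := by
      have h := hgz x hx
      simp only [g] at h
      rw [Finset.sum_eq_zero (fun i hi => by rw [hcs i hi, zero_mul])] at h
      simpa using h
    intro i hi
    rcases Finset.mem_insert.mp hi with rfl | hi
    · exact hca
    · exact hcs i hi

/-- The integer attached to an exponent vector. -/
private noncomputable def mval {σ : Type*} (P : σ → ℕ) (m : σ →₀ ℕ) : ℕ := ∏ i ∈ m.support, P i ^ m i

private theorem mval_pos {σ : Type*} (P : σ → ℕ) (hP : ∀ i, (P i).Prime) (m : σ →₀ ℕ) : 0 < mval P m :=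
  Finset.prod_pos fun i _ => pow_pos (hP i).pos _

private theorem mval_factorization {σ : Type*} (P : σ → ℕ) (hP : ∀ i, (P i).Prime)
    (hinj : Function.Injective P) (m : σ →₀ ℕ) (j : σ) : (mval P m).factorization (P j) = m j := by
  classical
  unfold mval
  rw [Nat.factorization_prod (fun i _ => (pow_pos (hP i).pos _).ne')]
  rw [Finsupp.finset_sum_apply]
  have hterm : ∀ i ∈ m.support, (P i ^ m i).factorization (P j) = if i = j then m i else 0 := by
    intro i _
    rw [(hP i).factorization_pow]
    by_cases h : i = j
    · subst h; simp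
    · rw [if_neg h, Finsupp.single_eq_of_ne]
      exact fun h' => h (hinj h'.symm)
  rw [Finset.sum_congr rfl hterm, Finset.sum_ite_eq']
  by_cases hj : j ∈ m.support
  · simp [hj]
  · rw [if_neg hj]
    exact (Finsupp.notMem_support_iff.mp hj).symm

private theorem mval_inj {σ : Type*} (P : σ → ℕ) (hP : ∀ i, (P i).Prime)
    (hinj : Function.Injective P) {m m' : σ →₀ ℕ} (h : mval P m = mval P m') : m = m' := by
  ext j
  rw [← mval_factorization P hP hinj m j, ← mval_factorization P hP hinj m' j, h]

/-- A nonzero polynomial evaluated at the `r`-th powers of distinct primes vanishes for fewer than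
`support.card` values of `r`. -/
theorem few_zeros {σ : Type*} (P : σ → ℕ) (hP : ∀ i, (P i).Prime) (hinj : Function.Injective P)
    (G : MvPolynomial σ ℚ) (hG : G ≠ 0) :
    Few (fun r => eval (fun i => (P i : ℚ) ^ r) G = 0) (G.support.card - 1) := by
  classical
  intro Z hZ
  by_contra hcon
  have hlt : G.support.card ≤ Z.card := by omega
  let Zr : Finset ℝ := Z.image (fun r : ℕ => (r : ℝ))
  have hZr : Zr.card = Z.card := Finset.card_image_of_injective _ Nat.cast_injective
  have hzero := exp_sum_zeros G.support (fun m => (mval P m : ℝ))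
    (fun m _ => by exact_mod_cast mval_pos P hP m)
    (by
      intro m _ m' _ h
      have h' : (mval P m : ℝ) = mval P m' := h
      exact mval_inj P hP hinj (by exact_mod_cast h'))
    (fun m => ((coeff m G : ℚ) : ℝ)) Zr (by omega)
    (by
      intro x hx
      obtain ⟨r, hr, rfl⟩ := Finset.mem_image.mp hx
      have h : eval (fun i => (P i : ℚ) ^ r) G = 0 := hZ r hr
      rw [MvPolynomial.eval_eq] at h
      have h' : ((∑ d ∈ G.support, coeff d G * ∏ i ∈ d.support, ((P i : ℚ) ^ r) ^ d i : ℚ) : ℝ) = 0 := by
        rw [h]; simp
      rw [← h']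
      push_cast
      refine Finset.sum_congr rfl fun m _ => ?_
      congr 1
      rw [Real.rpow_eq_pow, Real.rpow_natCast]
      unfold mval
      push_cast
      rw [← Finset.prod_pow]
      refine Finset.prod_congr rfl fun i _ => ?_
      rw [← pow_mul, ← pow_mul, mul_comm])
  obtain ⟨m, hm⟩ : ∃ m, coeff m G ≠ 0 := by
    by_contra hall
    push_neg at hall
    exact hG (MvPolynomial.ext _ _ (fun m => by simpa using hall m))
  have hms : m ∈ G.support := MvPolynomial.mem_support_iff.mpr hm
  have := hzero m hms
  exact hm (by exact_mod_cast this)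

/-- The map `(j, a) ↦ pr n (s + j) a` is injective with prime values. -/
theorem pr_prime (n j : ℕ) (a : Fin n) : (pr n j a).Prime :=
  Nat.prime_nth_prime _

theorem pr_inj {n j j' : ℕ} {a a' : Fin n} (h : pr n j a = pr n j' a') : j = j' ∧ a = a' := by
  have h1 : j * n + (a : ℕ) = j' * n + (a' : ℕ) := Nat.nth_injective Nat.infinite_setOf_prime h
  have ha := a.isLt
  have ha' := a'.isLt
  have hjj : j = j' := by
    by_contra hne
    rcases Nat.lt_or_gt_of_ne hne with hlt | hlt
    · have : (j + 1) * n ≤ j' * n := Nat.mul_le_mul_right n hlt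
      rw [add_mul, one_mul] at this
      omega
    · have : (j' + 1) * n ≤ j * n := Nat.mul_le_mul_right n hlt
      rw [add_mul, one_mul] at this
      omega
  subst hjj
  refine ⟨rfl, Fin.ext (by omega)⟩

end Vale.Agent.Lib.P314
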