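import Vale.Agent.Lib.P314.Defs

/-! MODULE Flag. Low-support concentration for branching programs with invertible default layers. Paper proof.
`rowAt_line`: induction on `j`, using `Crow` recursion and `Crow j m = 0` for `m > j` (`Crow_eq_zero`). `Crow_congr`: `Crow j m` depends only on `β q` for `q < j` (induction).
Let `A j = ∑ a, α j a • L j a`. `S j m = Submodule.span ℚ (Set.range fun β : ℕ → Fin n → ℚ => Crow u L α β j m)`, row space of coefficients. `T j m = ⨆ m' ≤ m, S j m'`, `W j = ⨆ m, S j m`.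
(a) `x ∈ S j m` gives `x ᵥ* A j ∈ S (j+1) m` : for `m = 0` immediate; for `m+1` take `β` with position `j` reset to `0` (`Function.update β j 0`), `Crow_congr`, the `β j a` term vanishes.
(b) `x ∈ S j m` gives `x ᵥ* L j a ∈ S (j+1) (m+1)`: take `β` with position `j` set to the indicator of `a`, subtract the point in (a).
(c) `S (j+1) (m+1) ≤` `(S j (m+1)) ᵥ* A j ⊔ ⨆ a, (S j m) ᵥ* L j a`, and `S (j+1) 0 ≤ S j 0 ᵥ* A j`: by the recursion, `β j a` is a scalar.
Flag: if `u ≠ 0`, for all `j ≤ d`: `W j ≤ T j (finrank (W j) - 1)`, by induction on `j`. `A j` invertible (det ≠ 0), so `x ↦ x ᵥ* A j` is injective and `finrank (W j) ≤ finrank (W (j+1))`. If equal: `W (j+1) = W j ᵥ* A j` (image inside, same finrank) `≤ T j δ ᵥ* A j ≤ T (j+1) δ` by (a). If larger: by (c) `W (j+1) ≤ T j δ ᵥ* A j ⊔ ⨆ a, T j δ ᵥ* L j a ≤ T (j+1) (δ+1)` by (a), (b) where `δ = finrank W j - 1`, and `δ + 1 ≤ finrank (W (j+1)) - 1`.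
`j = 0`: `W 0 = S 0 0 = span u` (the `m+1` rows vanish), finrank one. Then `finrank ≤ w`, so `W d ≤ T d (w-1)`. The functional `x ↦ ∑ i, x i * v i` vanishes on each `S d m`, `m < w` hence on `W d`. `rowAt_line` with `τ = 1`, `y = α + (y - α)`: the row at any `y` is in `W d`, so `valAt u L y d v = 0`. If `u = 0` trivial by induction (`rowAt` is zero). -/

open Matrix

namespace Vale.Agent.Lib.P314

theorem Crow_eq_zero {n w : ℕ} (u : Fin w → ℚ) (L : ℕ → Fin n → Matrix (Fin w) (Fin w) ℚ)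
    (α : ℕ → Fin n → ℚ) (β : ℕ → Fin n → ℚ) (j m : ℕ) (hm : j < m) (i : Fin w) :
    Crow u L α β j m i = 0 := by
  induction j generalizing m i with
  | zero =>
    obtain ⟨m, rfl⟩ : ∃ k, m = k + 1 := ⟨m - 1, by omega⟩
    rfl
  | succ j ih =>
    obtain ⟨m, rfl⟩ : ∃ k, m = k + 1 := ⟨m - 1, by omega⟩
    simp only [Crow]
    refine Finset.sum_eq_zero fun k _ => Finset.sum_eq_zero fun a _ => ?_
    rw [ih (m + 1) (by omega) k, ih m (by omega) k]
    simp

private theorem sum_shift (x : ℕ → ℚ) (τ c d : ℚ) (j : ℕ) (hx : x (j + 1) = 0) :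
    (∑ m ∈ Finset.range (j + 1), τ ^ m * x m) * (c + τ * d) =
      x 0 * c + ∑ m ∈ Finset.range (j + 1), τ ^ (m + 1) * (x (m + 1) * c + x m * d) := by
  have h1 : ∑ m ∈ Finset.range (j + 1), τ ^ (m + 1) * x (m + 1) + x 0
      = ∑ m ∈ Finset.range (j + 1), τ ^ m * x m := by
    have := Finset.sum_range_succ' (fun m => τ ^ m * x m) (j + 1)
    simp only [pow_zero, one_mul] at this
    rw [← this, Finset.sum_range_succ, hx]
    simp
  rw [← h1]
  have h2 : ∑ m ∈ Finset.range (j + 1), τ ^ (m + 1) * (x (m + 1) * c + x m * d)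
      = (∑ m ∈ Finset.range (j + 1), τ ^ (m + 1) * x (m + 1)) * c
        + τ * d * ∑ m ∈ Finset.range (j + 1), τ ^ m * x m := by
    rw [Finset.sum_mul, Finset.mul_sum, ← Finset.sum_add_distrib]
    refine Finset.sum_congr rfl fun m _ => ?_
    ring
  rw [h2, ← h1]
  ring

/-- The row at `α + τ β` is the polynomial in `τ` with coefficients `Crow`. -/
theorem rowAt_line {n w : ℕ} (u : Fin w → ℚ) (L : ℕ → Fin n → Matrix (Fin w) (Fin w) ℚ)
    (α β : ℕ → Fin n → ℚ) (τ : ℚ) (j : ℕ) (i : Fin w) :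
    rowAt u L (fun q a => α q a + τ * β q a) j i =
      ∑ m ∈ Finset.range (j + 1), τ ^ m * Crow u L α β j m i := by
  induction j generalizing i with
  | zero => simp [rowAt, Crow]
  | succ j ih =>
    rw [Finset.sum_range_succ']
    simp only [rowAt, Crow, pow_zero, one_mul, Finset.mul_sum]
    have key : ∀ (k : Fin w) (a : Fin n),
        rowAt u L (fun q a => α q a + τ * β q a) j k * (α j a + τ * β j a) * (algebraMap ℚ ℚ) (L j a k i)
          = ∑ m ∈ Finset.range (j + 1), τ ^ (m + 1) *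
              (Crow u L α β j (m + 1) k * (algebraMap ℚ ℚ) (α j a * L j a k i)
                + Crow u L α β j m k * β j a * (algebraMap ℚ ℚ) (L j a k i))
            + Crow u L α β j 0 k * (algebraMap ℚ ℚ) (α j a * L j a k i) := by
      intro k a
      have h := sum_shift (fun m => Crow u L α β j m k) τ (α j a) (β j a) j
        (Crow_eq_zero u L α β j (j + 1) (by omega) k)
      simp only [ih, Algebra.algebraMap_self, RingHom.id_apply]
      rw [h, add_mul, Finset.sum_mul, add_comm]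
      congr 1
      · refine Finset.sum_congr rfl fun m _ => ?_
        ring
      · ring
    simp only [key, Finset.sum_add_distrib]
    congr 1
    exact (Finset.sum_congr rfl fun k _ => Finset.sum_comm).trans Finset.sum_comm

theorem Crow_congr {n w : ℕ} (u : Fin w → ℚ) (L : ℕ → Fin n → Matrix (Fin w) (Fin w) ℚ)
    (α : ℕ → Fin n → ℚ) {β β' : ℕ → Fin n → ℚ} (j m : ℕ) (h : ∀ q < j, β q = β' q) :
    Crow u L α β j m = Crow u L α β' j m := by
  induction j generalizing m with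
  | zero => cases m <;> rfl
  | succ j ih =>
    funext i
    cases m with
    | zero =>
      simp only [Crow]
      rw [ih 0 (fun q hq => h q (by omega))]
    | succ m =>
      simp only [Crow]
      rw [ih (m + 1) (fun q hq => h q (by omega)), ih m (fun q hq => h q (by omega)),
        h j (by omega)]

/-- The default layer. -/
noncomputable abbrev lay {n w : ℕ} (L : ℕ → Fin n → Matrix (Fin w) (Fin w) ℚ)
    (α : ℕ → Fin n → ℚ) (j : ℕ) : Matrix (Fin w) (Fin w) ℚ := ∑ a, α j a • L j a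

theorem Crow_succ_zero {n w : ℕ} (u : Fin w → ℚ) (L : ℕ → Fin n → Matrix (Fin w) (Fin w) ℚ)
    (α β : ℕ → Fin n → ℚ) (j : ℕ) :
    Crow u L α β (j + 1) 0 = Crow u L α β j 0 ᵥ* lay L α j := by
  funext i
  simp [Crow, Matrix.vecMul, dotProduct, lay, Matrix.sum_apply, Finset.mul_sum]

theorem Crow_succ_succ {n w : ℕ} (u : Fin w → ℚ) (L : ℕ → Fin n → Matrix (Fin w) (Fin w) ℚ)
    (α β : ℕ → Fin n → ℚ) (j m : ℕ) :
    Crow u L α β (j + 1) (m + 1) =
      Crow u L α β j (m + 1) ᵥ* lay L α j + ∑ a, β j a • (Crow u L α β j m ᵥ* L j a) := by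
  funext i
  simp only [Crow, Matrix.vecMul, dotProduct, lay, Matrix.sum_apply, Finset.mul_sum, Pi.add_apply,
    Finset.sum_apply, Pi.smul_apply, Matrix.smul_apply, smul_eq_mul, Finset.sum_add_distrib,
    Algebra.algebraMap_self, RingHom.id_apply]
  congr 1
  rw [Finset.sum_comm]
  refine Finset.sum_congr rfl fun k _ => Finset.sum_congr rfl fun a _ => ?_
  ring

theorem gen_A {n w : ℕ} (u : Fin w → ℚ) (L : ℕ → Fin n → Matrix (Fin w) (Fin w) ℚ)
    (α β : ℕ → Fin n → ℚ) (j m : ℕ) :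
    ∃ β', Crow u L α β j m ᵥ* lay L α j = Crow u L α β' (j + 1) m := by
  cases m with
  | zero => exact ⟨β, (Crow_succ_zero u L α β j).symm⟩
  | succ m =>
    refine ⟨Function.update β j 0, ?_⟩
    rw [Crow_succ_succ]
    have h : ∀ m', Crow u L α (Function.update β j 0) j m' = Crow u L α β j m' := fun m' =>
      Crow_congr u L α j m' (fun q hq => by simp [Function.update_of_ne (show q ≠ j by omega)])
    simp [h]

theorem gen_L {n w : ℕ} (u : Fin w → ℚ) (L : ℕ → Fin n → Matrix (Fin w) (Fin w) ℚ)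
    (α β : ℕ → Fin n → ℚ) (j m : ℕ) (a : Fin n) :
    Crow u L α β j m ᵥ* L j a =
      Crow u L α (Function.update β j (Pi.single a 1)) (j + 1) (m + 1)
        - Crow u L α (Function.update β j 0) (j + 1) (m + 1) := by
  rw [Crow_succ_succ, Crow_succ_succ]
  have h : ∀ m', Crow u L α (Function.update β j 0) j m' = Crow u L α β j m' := fun m' =>
    Crow_congr u L α j m' (fun q hq => by simp [Function.update_of_ne (show q ≠ j by omega)])
  have h' : ∀ m', Crow u L α (Function.update β j (Pi.single a 1)) j m' = Crow u L α β j m' :=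
    fun m' => Crow_congr u L α j m' (fun q hq => by simp [Function.update_of_ne (show q ≠ j by omega)])
  simp only [h, h', Function.update_self, Pi.zero_apply, zero_smul, Finset.sum_const_zero, add_zero,
    add_sub_cancel_left]
  rw [Finset.sum_eq_single a]
  · simp
  · intro b _ hb
    simp [Pi.single_eq_of_ne hb]
  · simp

/-- Span of the coefficient rows of `τ ^ m` with `m ≤ δ`. -/
def Tsp {n w : ℕ} (u : Fin w → ℚ) (L : ℕ → Fin n → Matrix (Fin w) (Fin w) ℚ)
    (α : ℕ → Fin n → ℚ) (j δ : ℕ) : Submodule ℚ (Fin w → ℚ) :=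
  Submodule.span ℚ {x | ∃ m, m ≤ δ ∧ ∃ β, x = Crow u L α β j m}

/-- Span of all coefficient rows. -/
def Wsp {n w : ℕ} (u : Fin w → ℚ) (L : ℕ → Fin n → Matrix (Fin w) (Fin w) ℚ)
    (α : ℕ → Fin n → ℚ) (j : ℕ) : Submodule ℚ (Fin w → ℚ) :=
  Submodule.span ℚ {x | ∃ m β, x = Crow u L α β j m}

theorem Tsp_mono {n w : ℕ} (u : Fin w → ℚ) (L : ℕ → Fin n → Matrix (Fin w) (Fin w) ℚ)
    (α : ℕ → Fin n → ℚ) (j : ℕ) {δ δ' : ℕ} (h : δ ≤ δ') : Tsp u L α j δ ≤ Tsp u L α j δ' := by
  refine Submodule.span_mono ?_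
  rintro x ⟨m, hm, β, rfl⟩
  exact ⟨m, hm.trans h, β, rfl⟩

theorem Tsp_map_lay {n w : ℕ} (u : Fin w → ℚ) (L : ℕ → Fin n → Matrix (Fin w) (Fin w) ℚ)
    (α : ℕ → Fin n → ℚ) (j δ : ℕ) :
    (Tsp u L α j δ).map (lay L α j).vecMulLinear ≤ Tsp u L α (j + 1) δ := by
  refine (Submodule.map_span_le _ _ _).2 ?_
  rintro x ⟨m, hm, β, rfl⟩
  obtain ⟨β', hβ'⟩ := gen_A u L α β j m
  exact Submodule.subset_span ⟨m, hm, β', hβ'⟩

theorem Tsp_map_L {n w : ℕ} (u : Fin w → ℚ) (L : ℕ → Fin n → Matrix (Fin w) (Fin w) ℚ)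
    (α : ℕ → Fin n → ℚ) (j δ : ℕ) (a : Fin n) :
    (Tsp u L α j δ).map (L j a).vecMulLinear ≤ Tsp u L α (j + 1) (δ + 1) := by
  refine (Submodule.map_span_le _ _ _).2 ?_
  rintro x ⟨m, hm, β, rfl⟩
  rw [Matrix.vecMulLinear_apply, gen_L]
  refine Submodule.sub_mem _ (Submodule.subset_span ⟨m + 1, by omega, _, rfl⟩)
    (Submodule.subset_span ⟨m + 1, by omega, _, rfl⟩)

theorem Wsp_map_lay {n w : ℕ} (u : Fin w → ℚ) (L : ℕ → Fin n → Matrix (Fin w) (Fin w) ℚ)
    (α : ℕ → Fin n → ℚ) (j : ℕ) :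
    (Wsp u L α j).map (lay L α j).vecMulLinear ≤ Wsp u L α (j + 1) := by
  refine (Submodule.map_span_le _ _ _).2 ?_
  rintro x ⟨m, β, rfl⟩
  obtain ⟨β', hβ'⟩ := gen_A u L α β j m
  exact Submodule.subset_span ⟨m, β', hβ'⟩

theorem Wsp_succ_le {n w : ℕ} (u : Fin w → ℚ) (L : ℕ → Fin n → Matrix (Fin w) (Fin w) ℚ)
    (α : ℕ → Fin n → ℚ) (j : ℕ) (V : Submodule ℚ (Fin w → ℚ))
    (hV : (Wsp u L α j).map (lay L α j).vecMulLinear ≤ V)
    (hV' : ∀ a, (Wsp u L α j).map (L j a).vecMulLinear ≤ V) : Wsp u L α (j + 1) ≤ V := by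
  refine Submodule.span_le.2 ?_
  rintro x ⟨m, β, rfl⟩
  have hW : ∀ m', Crow u L α β j m' ∈ Wsp u L α j := fun m' =>
    Submodule.subset_span ⟨m', β, rfl⟩
  cases m with
  | zero =>
    rw [Crow_succ_zero]
    exact hV (Submodule.mem_map_of_mem (hW 0))
  | succ m =>
    rw [Crow_succ_succ]
    refine Submodule.add_mem _ (hV (Submodule.mem_map_of_mem (hW (m + 1)))) ?_
    refine Submodule.sum_mem _ fun a _ => Submodule.smul_mem _ _ ?_
    exact hV' a (Submodule.mem_map_of_mem (hW m))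

theorem Tsp_le_Wsp {n w : ℕ} (u : Fin w → ℚ) (L : ℕ → Fin n → Matrix (Fin w) (Fin w) ℚ)
    (α : ℕ → Fin n → ℚ) (j δ : ℕ) : Tsp u L α j δ ≤ Wsp u L α j := by
  refine Submodule.span_mono ?_
  rintro x ⟨m, _, β, rfl⟩
  exact ⟨m, β, rfl⟩

theorem flag_chain {n w : ℕ} (u : Fin w → ℚ) (L : ℕ → Fin n → Matrix (Fin w) (Fin w) ℚ)
    (α : ℕ → Fin n → ℚ) (d : ℕ) (hu : u ≠ 0)
    (hA : ∀ j < d, (∑ a, α j a • L j a).det ≠ 0) (j : ℕ) (hj : j ≤ d) :
    1 ≤ Module.finrank ℚ (Wsp u L α j) ∧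
      Wsp u L α j ≤ Tsp u L α j (Module.finrank ℚ (Wsp u L α j) - 1) := by
  induction j with
  | zero =>
    constructor
    · have hmem : u ∈ Wsp u L α 0 := Submodule.subset_span ⟨0, 0, by funext i; simp [Crow]⟩
      have : Wsp u L α 0 ≠ ⊥ := fun h => hu (by simpa [h] using hmem)
      exact Nat.one_le_iff_ne_zero.2 fun h0 => this (Submodule.finrank_eq_zero.1 h0)
    · refine Submodule.span_le.2 ?_
      rintro x ⟨m, β, rfl⟩
      cases m with
      | zero => exact Submodule.subset_span ⟨0, Nat.zero_le _, β, rfl⟩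
      | succ m =>
        have : Crow u L α β 0 (m + 1) = 0 := rfl
        simp [this]
  | succ j ih =>
    obtain ⟨h1, h2⟩ := ih (by omega)
    have hdet := hA j (by omega)
    have hinj : Function.Injective (lay L α j).vecMulLinear := by
      rw [Matrix.coe_vecMulLinear]
      exact Matrix.vecMul_injective_of_isUnit ((Matrix.isUnit_iff_isUnit_det _).2 (isUnit_iff_ne_zero.2 hdet))
    set f := Module.finrank ℚ (Wsp u L α j) with hf
    set f' := Module.finrank ℚ (Wsp u L α (j + 1)) with hf'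
    have hrank : Module.finrank ℚ ((Wsp u L α j).map (lay L α j).vecMulLinear) = f := by
      exact (Submodule.equivMapOfInjective _ hinj _).finrank_eq.symm
    have hle := Wsp_map_lay u L α j
    have hff' : f ≤ f' := by
      rw [← hrank]
      exact Submodule.finrank_mono hle
    refine ⟨h1.trans hff', ?_⟩
    rcases hff'.eq_or_lt with heq | hlt
    · have := Submodule.eq_of_le_of_finrank_eq hle (by rw [hrank, heq])
      rw [← this]
      rw [← heq]
      exact (Submodule.map_mono h2).trans (Tsp_map_lay u L α j (f - 1))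
    · refine Wsp_succ_le u L α j _ ?_ ?_
      · refine (Submodule.map_mono h2).trans ((Tsp_map_lay u L α j (f - 1)).trans (Tsp_mono _ _ _ _ ?_))
        omega
      · intro a
        refine (Submodule.map_mono h2).trans ((Tsp_map_L u L α j (f - 1) a).trans (Tsp_mono _ _ _ _ ?_))
        omega

theorem rowAt_zero_u {n w : ℕ} (L : ℕ → Fin n → Matrix (Fin w) (Fin w) ℚ) (y : ℕ → Fin n → ℚ)
    (j : ℕ) (i : Fin w) : rowAt (0 : Fin w → ℚ) L y j i = 0 := by
  induction j generalizing i with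
  | zero => simp [rowAt]
  | succ j ih => simp [rowAt, ih]

/-- Low-support concentration: if the default layers are invertible and all coefficients of `τ ^ m`, `m < w`,
vanish at `v`, then the program vanishes identically. -/
theorem flag {n w : ℕ} (u : Fin w → ℚ) (L : ℕ → Fin n → Matrix (Fin w) (Fin w) ℚ)
    (α : ℕ → Fin n → ℚ) (d : ℕ) (v : Fin w → ℚ)
    (hA : ∀ j < d, (∑ a, α j a • L j a).det ≠ 0)
    (hv : ∀ m < w, ∀ β : ℕ → Fin n → ℚ, ∑ i, Crow u L α β d m i * v i = 0)
    (y : ℕ → Fin n → ℚ) : valAt u L y d v = 0 := by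
  by_cases hu : u = 0
  · subst hu
    simp [valAt, rowAt_zero_u]
  obtain ⟨h1, h2⟩ := flag_chain u L α d hu hA d le_rfl
  have hw : Module.finrank ℚ (Wsp u L α d) ≤ w := by
    simpa using Submodule.finrank_le (Wsp u L α d)
  let φ : (Fin w → ℚ) →ₗ[ℚ] ℚ :=
    { toFun := fun x => ∑ i, x i * v i
      map_add' := fun x y => by simp [add_mul, Finset.sum_add_distrib]
      map_smul' := fun c x => by simp [Finset.mul_sum, mul_assoc] }
  have hker : Tsp u L α d (w - 1) ≤ LinearMap.ker φ := by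
    refine Submodule.span_le.2 ?_
    rintro x ⟨m, hm, β, rfl⟩
    exact hv m (by omega) β
  have hW : Wsp u L α d ≤ LinearMap.ker φ :=
    h2.trans ((Tsp_mono _ _ _ _ (by omega)).trans hker)
  have hrow : (fun i => rowAt u L y d i) ∈ Wsp u L α d := by
    have hline : (fun i => rowAt u L y d i) =
        ∑ m ∈ Finset.range (d + 1), Crow u L α (fun q a => y q a - α q a) d m := by
      funext i
      have := rowAt_line u L α (fun q a => y q a - α q a) 1 d i
      simp only [one_mul, add_sub_cancel, one_pow] at this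
      simpa [Finset.sum_apply] using this
    rw [hline]
    exact Submodule.sum_mem _ fun m _ => Submodule.subset_span ⟨m, _, rfl⟩
  have := hW hrow
  simpa [φ, valAt] using this

end Vale.Agent.Lib.P314
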