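import Vale.Agent.Lib.P314.Defs

/-! MODULE Supp. Support bounds. Paper proof.
`detPoly`: `Matrix.det_apply`: sum over `w!` permutations of signed products of `w` linear forms. `MvPolynomial.support_mul`: support of a product inside the sum set, so card ≤ product of cards. A linear form `∑ a, X a * C x` has support of size at most `n`. Product of `w` forms: at most `n^w`. Sum: `w! * n^w` (`Finset.card_biUnion_le`, `MvPolynomial.support_sum`).
`Crow_support`: there is a family of Finsets `Sup j m` of exponent vectors with `card (Sup j m) ≤ (j * n + 1) ^ m` containing the support of every entry of `Crow u L α X' j m` where `X' q a = X (q, a)`: `Sup 0 0 = {0}`, `Sup 0 (m+1) = ∅`, `Sup (j+1) 0 = Sup j 0`, `Sup (j+1) (m+1) = Sup j (m+1) ∪ ⋃ a, (Sup j m).image (· + single (j, a) 1)`, and `(j n + 1)^(m+1) + n (j n + 1)^m = (j n + 1)^m ((j+1) n + 1) ≤ ((j+1) n + 1)^(m+1)`. Multiplying by a constant (`algebraMap ℚ`, i.e. `C`) does not enlarge the support, `X` shifts it. Only then the sum with `v` stays inside `Sup d m`. -/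

open MvPolynomial

namespace Vale.Agent.Lib.P314

namespace SuppAux

open scoped Pointwise

variable {σ : Type*} [DecidableEq σ]

lemma card_support_add_le (p q : MvPolynomial σ ℚ) :
    (p + q).support.card ≤ p.support.card + q.support.card :=
  le_trans (Finset.card_le_card MvPolynomial.support_add) (Finset.card_union_le _ _)

lemma card_support_sum_le {ι : Type*} (s : Finset ι) (f : ι → MvPolynomial σ ℚ) :
    (∑ i ∈ s, f i).support.card ≤ ∑ i ∈ s, (f i).support.card := by
  classical
  induction s using Finset.induction_on with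
  | empty => simp
  | insert a s ha ih =>
    rw [Finset.sum_insert ha, Finset.sum_insert ha]
    exact le_trans (card_support_add_le _ _) (Nat.add_le_add_left ih _)

lemma card_support_mul_le (p q : MvPolynomial σ ℚ) :
    (p * q).support.card ≤ p.support.card * q.support.card :=
  le_trans (Finset.card_le_card (MvPolynomial.support_mul p q)) Finset.card_add_le

lemma card_support_prod_le {ι : Type*} (s : Finset ι) (f : ι → MvPolynomial σ ℚ) :
    (∏ i ∈ s, f i).support.card ≤ ∏ i ∈ s, (f i).support.card := by
  classical
  induction s using Finset.induction_on with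
  | empty =>
    simp only [Finset.prod_empty]
    rw [MvPolynomial.support_one]
    simp
  | insert a s ha ih =>
    rw [Finset.prod_insert ha, Finset.prod_insert ha]
    exact le_trans (card_support_mul_le _ _) (Nat.mul_le_mul_left _ ih)

lemma card_support_linear {n : ℕ} (x : Fin n → ℚ) :
    (∑ a, X (R := ℚ) a * C (x a)).support.card ≤ n := by
  refine le_trans (card_support_sum_le _ _) ?_
  have h1 : ∀ a ∈ (Finset.univ : Finset (Fin n)), (X (R := ℚ) a * C (x a)).support.card ≤ 1 := by
    intro a _
    rw [mul_comm, C_mul_X_eq_monomial]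
    exact le_trans (Finset.card_le_card (support_monomial_subset)) (by simp)
  calc _ ≤ ∑ _a : Fin n, 1 := Finset.sum_le_sum h1
    _ = n := by simp

end SuppAux

open SuppAux

theorem detPoly_support {n w : ℕ} (M : Fin n → Matrix (Fin w) (Fin w) ℚ) :
    (detPoly M).support.card ≤ w.factorial * n ^ w := by
  unfold detPoly
  rw [Matrix.det_apply]
  refine le_trans (card_support_sum_le _ _) ?_
  have h1 : ∀ τ ∈ (Finset.univ : Finset (Equiv.Perm (Fin w))),
      (Equiv.Perm.sign τ • ∏ i, (Matrix.of fun i k => ∑ a, X (R := ℚ) a * C (M a i k)) (τ i) i).support.card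
        ≤ n ^ w := by
    intro τ _
    have h2 : (∏ i, (Matrix.of fun i k => ∑ a, X (R := ℚ) a * C (M a i k)) (τ i) i).support.card
        ≤ n ^ w := by
      refine le_trans (card_support_prod_le _ _) ?_
      calc _ ≤ ∏ _i : Fin w, n :=
            Finset.prod_le_prod' fun i _ => card_support_linear (fun a => M a (τ i) i)
        _ = n ^ w := by simp
    rcases Int.units_eq_one_or (Equiv.Perm.sign τ) with h | h
    · rw [h, one_smul]; exact h2
    · rw [h, Units.neg_smul, one_smul, support_neg]; exact h2
  calc _ ≤ ∑ _τ : Equiv.Perm (Fin w), n ^ w := Finset.sum_le_sum h1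
    _ = w.factorial * n ^ w := by
      simp [Fintype.card_perm]

theorem eval_detPoly {n w : ℕ} (M : Fin n → Matrix (Fin w) (Fin w) ℚ) (c : Fin n → ℚ) :
    eval c (detPoly M) = (∑ a, c a • M a).det := by
  unfold detPoly
  rw [RingHom.map_det]
  congr 1
  ext i k
  simp [Matrix.sum_apply]

namespace SuppAux

/-- The family of exponent vectors containing the support of `Crow`. -/
noncomputable def Sup (n : ℕ) : ℕ → ℕ → Finset ((ℕ × Fin n) →₀ ℕ)
  | 0, 0 => {0}
  | 0, _ + 1 => ∅
  | j + 1, 0 => Sup n j 0
  | j + 1, m + 1 => Sup n j (m + 1) ∪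
      (Finset.univ : Finset (Fin n)).biUnion fun a =>
        (Sup n j m).image fun e => e + Finsupp.single (j, a) 1

lemma card_Sup (n j : ℕ) : ∀ m, (Sup n j m).card ≤ (j * n + 1) ^ m := by
  induction j with
  | zero =>
    intro m
    cases m with
    | zero => simp [Sup]
    | succ m => simp [Sup]
  | succ j ih =>
    intro m
    cases m with
    | zero =>
      have := ih 0
      simpa [Sup] using this
    | succ m =>
      rw [Sup]
      refine le_trans (Finset.card_union_le _ _) ?_
      have h1 := ih (m + 1)
      have h2 : ((Finset.univ : Finset (Fin n)).biUnion fun a =>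
          (Sup n j m).image fun e => e + Finsupp.single (j, a) 1).card ≤ n * (j * n + 1) ^ m := by
        refine le_trans Finset.card_biUnion_le ?_
        calc _ ≤ ∑ _a : Fin n, (j * n + 1) ^ m :=
              Finset.sum_le_sum fun a _ => le_trans Finset.card_image_le (ih m)
          _ = n * (j * n + 1) ^ m := by simp
      have h3 : (j * n + 1) ^ (m + 1) + n * (j * n + 1) ^ m
          = (j * n + 1) ^ m * ((j + 1) * n + 1) := by ring
      have h4 : (j * n + 1) ^ m ≤ ((j + 1) * n + 1) ^ m :=
        Nat.pow_le_pow_left (by nlinarith) m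
      calc _ ≤ (j * n + 1) ^ (m + 1) + n * (j * n + 1) ^ m := Nat.add_le_add h1 h2
        _ = (j * n + 1) ^ m * ((j + 1) * n + 1) := h3
        _ ≤ ((j + 1) * n + 1) ^ m * ((j + 1) * n + 1) := Nat.mul_le_mul_right _ h4
        _ = ((j + 1) * n + 1) ^ (m + 1) := by ring

lemma support_mul_const {σ : Type*} (p : MvPolynomial σ ℚ) (c : ℚ) :
    (p * algebraMap ℚ (MvPolynomial σ ℚ) c).support ⊆ p.support := by
  rw [MvPolynomial.algebraMap_eq, mul_comm, ← smul_eq_C_mul]
  exact support_smul

lemma Crow_sub {n w : ℕ} (u : Fin w → ℚ) (L : ℕ → Fin n → Matrix (Fin w) (Fin w) ℚ)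
    (α : ℕ → Fin n → ℚ) (j : ℕ) : ∀ (m : ℕ) (i : Fin w),
    (Crow (R := MvPolynomial (ℕ × Fin n) ℚ) u L α (fun q a => X (q, a)) j m i).support
      ⊆ Sup n j m := by
  induction j with
  | zero =>
    intro m i
    cases m with
    | zero =>
      simp only [Crow, Sup, MvPolynomial.algebraMap_eq, C_apply]
      exact support_monomial_subset
    | succ m => simp [Crow]
  | succ j ih =>
    intro m i
    cases m with
    | zero =>
      simp only [Crow]
      refine support_sum.trans (Finset.biUnion_subset.2 fun k _ => ?_)
      refine support_sum.trans (Finset.biUnion_subset.2 fun a _ => ?_)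
      exact (support_mul_const _ _).trans (ih 0 k)
    | succ m =>
      simp only [Crow]
      refine support_sum.trans (Finset.biUnion_subset.2 fun k _ => ?_)
      refine support_sum.trans (Finset.biUnion_subset.2 fun a _ => ?_)
      refine support_add.trans (Finset.union_subset ?_ ?_)
      · refine (support_mul_const _ _).trans ((ih (m + 1) k).trans ?_)
        rw [Sup]
        exact Finset.subset_union_left
      · refine (support_mul_const _ _).trans ?_
        rw [support_mul_X]
        intro e he
        rw [Finset.mem_map] at he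
        obtain ⟨e', he', rfl⟩ := he
        rw [Sup]
        refine Finset.mem_union_right _ (Finset.mem_biUnion.2 ⟨a, Finset.mem_univ a, ?_⟩)
        exact Finset.mem_image.2 ⟨e', ih m k he', rfl⟩

end SuppAux

theorem Crow_support {n w : ℕ} (u : Fin w → ℚ) (L : ℕ → Fin n → Matrix (Fin w) (Fin w) ℚ)
    (α : ℕ → Fin n → ℚ) (v : Fin w → ℚ) (d m : ℕ) :
    (∑ i, Crow (R := MvPolynomial (ℕ × Fin n) ℚ) u L α (fun q a => X (q, a)) d m i
        * algebraMap ℚ (MvPolynomial (ℕ × Fin n) ℚ) (v i)).support.card ≤ (d * n + 1) ^ m := by
  refine le_trans (Finset.card_le_card ?_) (SuppAux.card_Sup n d m)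
  refine support_sum.trans (Finset.biUnion_subset.2 fun i _ => ?_)
  exact (SuppAux.support_mul_const _ _).trans (SuppAux.Crow_sub u L α d m i)

end Vale.Agent.Lib.P314
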