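import Vale.Agent.Lib.P314.Shift
import Vale.Agent.Lib.P314.Hit
import Vale.Agent.Lib.P314.ExpSum
import Vale.Agent.Lib.P314.Flag
import Vale.Agent.Lib.P314.Supp

/-! MODULE Regular. A regular branching program. Paper proof.
`abp_eq_zero_of`: for column vectors `ψ` with `∀ y, ∑ i, rowAt u L y j i * ψ i = 0` prove `∑ i, abpRow u L j i * algebraMap (ψ i) = 0` by induction on `j`. `j = 0`: `u ⬝ ψ = 0`. `j + 1`: `∑ i, abpRow (j+1) i * ψ i = ∑ a, (∑ k, abpRow j k * algebraMap ((L j a *ᵥ ψ) k)) * ι a` (scalars are central), and `L j a *ᵥ ψ` satisfies the hypothesis at `j`: take `y` with position `j` the indicator of `a`, note `rowAt j` depends only on positions `< j`.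
`hit_regular`: `l = d`, `E s = valAt u L (fun q a => X (s + q, a)) d v` over `MvPolynomial (ℕ × Fin n) ℚ`. `Lead`: `evalAt_abp` and `valAt_map` with `aeval`. Fix `s`. `good₁ r := ∀ j < d, eval (fun a => (pr n (s + j) a : ℚ) ^ r) (detPoly (L j)) ≠ 0`. Each `detPoly (L j) ≠ 0` by `eval_detPoly` and `hreg`; `few_zeros` with `detPoly_support`; `Few` of the finite disjunction over `j < d` by `Few.or`, total `d * (w! * n^w)`.
Fix a good `r`, `α j a = (pr n (s + j) a)^r`. By `flag` and `abp_eq_zero_of` (as `abp ≠ 0`): there are `m < w`, `β₀` with `∑ i, Crow u L α β₀ d m i * v i ≠ 0`. So `H = ∑ i, Crow (R := MvPolynomial ..) u L α X' d m i * algebraMap (v i)` is nonzero (`Crow_map` with `aeval β₀`). `good₂ r' := eval (fun p => (pr n (s + p.1) p.2 : ℚ) ^ r') H ≠ 0`; `few_zeros` with the injective map `(q, a) ↦ pr n (s + q) a` and `Crow_support`; `(d n + 1)^m ≤ (d n + 1)^(w-1)`.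
Fix a good `r'`, `β q a = (pr n (s + q) a)^r'`. `Q = ∑ m' ∈ range (d+1), C (∑ i, Crow u L α β d m' i * v i) * X ^ m'`. `Q ≠ 0`: coefficient `m` is nonzero (`m ≤ d` by `Crow_eq_zero`). `natDegree ≤ d`. `Q.eval τ = valAt u L (fun q a => α q a + τ β q a) d v` by `rowAt_line`, this is `eval genY (E s)` by `valAt_map`. -/

open MvPolynomial

namespace Vale.Agent.Lib.P314

/-- The row at position `j` depends only on the positions below `j`. -/
theorem rowAt_congr {n w : ℕ} (u : Fin w → ℚ) (L : ℕ → Fin n → Matrix (Fin w) (Fin w) ℚ)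
    (y y' : ℕ → Fin n → ℚ) (j : ℕ) (h : ∀ q < j, y q = y' q) (i : Fin w) :
    rowAt u L y j i = rowAt u L y' j i := by
  induction j generalizing i with
  | zero => rfl
  | succ j ih =>
    simp only [rowAt]
    refine Finset.sum_congr rfl fun k _ => Finset.sum_congr rfl fun a _ => ?_
    rw [ih (fun q hq => h q (Nat.lt_succ_of_lt hq)) k, h j (Nat.lt_succ_self j)]

theorem abpRow_sum_eq_zero {n w : ℕ} (u : Fin w → ℚ)
    (L : ℕ → Fin n → Matrix (Fin w) (Fin w) ℚ) (j : ℕ) :
    ∀ ψ : Fin w → ℚ, (∀ y : ℕ → Fin n → ℚ, ∑ i, rowAt u L y j i * ψ i = 0) →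
      ∑ i, abpRow u L j i * algebraMap ℚ (NC n) (ψ i) = 0 := by
  induction j with
  | zero =>
    intro ψ h
    have h0 := h (fun _ _ => 0)
    simp only [rowAt, Algebra.algebraMap_self, RingHom.id_apply] at h0
    simp only [abpRow, ← map_mul, ← map_sum, h0, map_zero]
  | succ j ih =>
    intro ψ h
    have key : ∀ a : Fin n, ∑ k, abpRow u L j k *
        algebraMap ℚ (NC n) (∑ i, L j a k i * ψ i) = 0 := by
      intro a
      refine ih (fun k => ∑ i, L j a k i * ψ i) ?_
      intro y
      have h1 := h (fun q b => if q = j then (if b = a then 1 else 0) else y q b)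
      simp only [rowAt] at h1
      have h2 : ∀ k, rowAt u L (fun q b => if q = j then (if b = a then 1 else 0) else y q b) j k
          = rowAt u L y j k := by
        intro k
        refine rowAt_congr u L _ _ j (fun q hq => ?_) k
        funext b
        simp [Nat.ne_of_lt hq]
      simp only [h2, if_true] at h1
      have h3 : ∀ (k i : Fin w), ∑ b : Fin n, rowAt u L y j k * (if b = a then (1:ℚ) else 0) *
          algebraMap ℚ ℚ (L j b k i) = rowAt u L y j k * L j a k i := by
        intro k i
        simp [Finset.sum_ite_eq', ite_mul, mul_ite]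
      simp only [h3] at h1
      rw [← h1]
      simp only [Finset.sum_mul, Finset.mul_sum]
      rw [Finset.sum_comm]
      refine Finset.sum_congr rfl fun k _ => Finset.sum_congr rfl fun i _ => ?_
      ring
    have hcomm : ∀ (x : NC n) (c : ℚ), algebraMap ℚ (NC n) c * x = x * algebraMap ℚ (NC n) c :=
      fun x c => Algebra.commutes c x
    have : ∑ i, abpRow u L (j + 1) i * algebraMap ℚ (NC n) (ψ i)
        = ∑ a, (∑ k, abpRow u L j k * algebraMap ℚ (NC n) (∑ i, L j a k i * ψ i)) *
            FreeAlgebra.ι ℚ a := by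
      have hterm : ∀ (i k : Fin w) (a : Fin n),
          abpRow u L j k * FreeAlgebra.ι ℚ a * algebraMap ℚ (NC n) (L j a k i) *
              algebraMap ℚ (NC n) (ψ i)
            = abpRow u L j k * algebraMap ℚ (NC n) (L j a k i * ψ i) * FreeAlgebra.ι ℚ a := by
        intro i k a
        have hx : FreeAlgebra.ι ℚ a * algebraMap ℚ (NC n) (L j a k i) * algebraMap ℚ (NC n) (ψ i)
            = algebraMap ℚ (NC n) (L j a k i) * algebraMap ℚ (NC n) (ψ i) * FreeAlgebra.ι ℚ a := by
          rw [← hcomm (FreeAlgebra.ι ℚ a) (L j a k i), mul_assoc (algebraMap ℚ (NC n) (L j a k i)),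
            ← hcomm (FreeAlgebra.ι ℚ a) (ψ i), mul_assoc]
        rw [map_mul, mul_assoc (abpRow u L j k), mul_assoc (abpRow u L j k), hx, mul_assoc]
        simp only [mul_assoc]
      calc ∑ i, abpRow u L (j + 1) i * algebraMap ℚ (NC n) (ψ i)
          = ∑ i, ∑ k, ∑ a, abpRow u L j k * FreeAlgebra.ι ℚ a * algebraMap ℚ (NC n) (L j a k i) *
              algebraMap ℚ (NC n) (ψ i) := by
            simp only [abpRow, Finset.sum_mul]
        _ = ∑ k, ∑ i, ∑ a, abpRow u L j k * FreeAlgebra.ι ℚ a * algebraMap ℚ (NC n) (L j a k i) *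
              algebraMap ℚ (NC n) (ψ i) := Finset.sum_comm
        _ = ∑ k, ∑ a, ∑ i, abpRow u L j k * FreeAlgebra.ι ℚ a * algebraMap ℚ (NC n) (L j a k i) *
              algebraMap ℚ (NC n) (ψ i) :=
            Finset.sum_congr rfl fun k _ => Finset.sum_comm
        _ = ∑ a, ∑ k, ∑ i, abpRow u L j k * FreeAlgebra.ι ℚ a * algebraMap ℚ (NC n) (L j a k i) *
              algebraMap ℚ (NC n) (ψ i) := Finset.sum_comm
        _ = _ := by
            simp only [map_sum, Finset.mul_sum, Finset.sum_mul, hterm]
    rw [this]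
    simp only [key, zero_mul, Finset.sum_const_zero]

theorem abp_eq_zero_of {n w : ℕ} (u : Fin w → ℚ) (L : ℕ → Fin n → Matrix (Fin w) (Fin w) ℚ) (d : ℕ)
    (v : Fin w → ℚ) (h : ∀ y : ℕ → Fin n → ℚ, valAt u L y d v = 0) : abp u L d v = 0 := by
  refine abpRow_sum_eq_zero u L d v fun y => ?_
  have := h y
  simpa [valAt] using this

/-- `Few` of a bounded disjunction. -/
theorem few_exists_lt {B : ℕ → ℕ → Prop} {c : ℕ} (d : ℕ) (h : ∀ j < d, Few (B j) c) :
    Few (fun r => ∃ j < d, B j r) (d * c) := by
  induction d with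
  | zero =>
    intro Z hZ
    have : Z = ∅ := by
      apply Finset.eq_empty_of_forall_notMem
      intro r hr
      obtain ⟨j, hj, -⟩ := hZ r hr
      exact absurd hj (Nat.not_lt_zero j)
    simp [this]
  | succ d ih =>
    have h1 := ih (fun j hj => h j (Nat.lt_succ_of_lt hj))
    have h2 := Few.or h1 (h d (Nat.lt_succ_self d))
    refine Few.mono h2 ?_ (by rw [Nat.succ_mul])
    rintro r ⟨j, hj, hB⟩
    rcases Nat.lt_succ_iff_lt_or_eq.mp hj with hlt | rfl
    · exact Or.inl ⟨j, hlt, hB⟩
    · exact Or.inr hB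

theorem hit_regular {n : ℕ} (D w d : ℕ) (u : Fin w → ℚ) (L : ℕ → Fin n → Matrix (Fin w) (Fin w) ℚ)
    (v : Fin w → ℚ) (hreg : ∀ j < d, ∃ c : Fin n → ℚ, (∑ a, c a • L j a).det ≠ 0)
    (hg : abp u L d v ≠ 0) :
    HitProp D (abp u L d v) d (d * (w.factorial * n ^ w)) ((d * n + 1) ^ (w - 1)) := by
  refine ⟨d, le_refl d, fun s => valAt u L (fun q a => X (s + q, a)) d v, ?_, ?_⟩
  · constructor
    · intro y s t hlt
      rw [evalAt_abp, if_neg (Nat.ne_of_lt hlt)]
    · intro y s t ht
      rw [evalAt_abp, if_pos ht, ← MvPolynomial.aeval_eq_eval, valAt_map]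
      simp only [MvPolynomial.aeval_X]
  · intro s
    refine ⟨fun r => ∀ j < d, eval (fun a => (pr n (s + j) a : ℚ) ^ r) (detPoly (L j)) ≠ 0, ?_, ?_⟩
    · have hFew : Few (fun r => ∃ j < d, eval (fun a => (pr n (s + j) a : ℚ) ^ r) (detPoly (L j)) = 0)
          (d * (w.factorial * n ^ w)) := by
        refine few_exists_lt d (fun j hj => ?_)
        have hne : detPoly (L j) ≠ 0 := by
          intro h0
          obtain ⟨c, hc⟩ := hreg j hj
          apply hc
          rw [← eval_detPoly, h0, map_zero]
        refine Few.mono (few_zeros (fun a => pr n (s + j) a) (fun a => pr_prime n (s + j) a)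
          (fun a b hab => (pr_inj hab).2) _ hne) (fun r hr => hr) ?_
        exact (Nat.sub_le _ _).trans (detPoly_support (L j))
      refine Few.mono hFew ?_ le_rfl
      intro r hr
      push Not at hr
      exact hr
    · intro r hr
      have hA : ∀ j < d, (∑ a, (fun j a => (pr n (s + j) a : ℚ) ^ r) j a • L j a).det ≠ 0 := by
        intro j hj
        rw [← eval_detPoly]
        exact hr j hj
      generalize hα : (fun j a => (pr n (s + j) a : ℚ) ^ r) = α at hA
      have hex : ∃ m < w, ∃ β₀ : ℕ → Fin n → ℚ, ∑ i, Crow u L α β₀ d m i * v i ≠ 0 := by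
        by_contra hcon
        push Not at hcon
        exact hg (abp_eq_zero_of u L d v (flag u L α d v hA hcon))
      obtain ⟨m, hm, β₀, hβ₀⟩ := hex
      obtain ⟨H, hH⟩ : ∃ H : MvPolynomial (ℕ × Fin n) ℚ, H =
          ∑ i, Crow (R := MvPolynomial (ℕ × Fin n) ℚ) u L α (fun q a => X (q, a)) d m i
            * algebraMap ℚ _ (v i) := ⟨_, rfl⟩
      have hevalH : ∀ β : ℕ → Fin n → ℚ, aeval (fun p : ℕ × Fin n => β p.1 p.2) H
          = ∑ i, Crow u L α β d m i * v i := by
        intro β
        rw [hH, map_sum]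
        refine Finset.sum_congr rfl fun i _ => ?_
        rw [map_mul, Crow_map]
        simp [aeval_X]
      have hHne : H ≠ 0 := by
        intro h0
        apply hβ₀
        rw [← hevalH, h0, map_zero]
      refine ⟨fun r' => eval (fun p : ℕ × Fin n => (pr n (s + p.1) p.2 : ℚ) ^ r') H ≠ 0, ?_, ?_⟩
      · refine Few.mono (few_zeros (fun p : ℕ × Fin n => pr n (s + p.1) p.2)
          (fun p => pr_prime n (s + p.1) p.2) ?_ H hHne) ?_ ?_
        · rintro ⟨q, a⟩ ⟨q', a'⟩ hp
          obtain ⟨h1, h2⟩ := pr_inj hp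
          have h3 : q = q' := by
            have h4 : s + q = s + q' := h1
            omega
          have h5 : a = a' := h2
          rw [h3, h5]
        · intro r' hr'
          simpa using hr'
        · refine (Nat.sub_le _ _).trans ?_
          rw [hH]
          refine (Crow_support u L α v d m).trans ?_
          exact Nat.pow_le_pow_right (Nat.succ_pos _) (by omega)
      · intro r' hr'
        have hβ : ∑ i, Crow u L α (fun q a => (pr n (s + q) a : ℚ) ^ r') d m i * v i ≠ 0 := by
          rw [← hevalH]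
          exact hr'
        generalize hβdef : (fun q a => (pr n (s + q) a : ℚ) ^ r') = β at hβ
        have hmd : m ≤ d := by
          by_contra hmd
          push Not at hmd
          apply hβ
          refine Finset.sum_eq_zero fun i _ => ?_
          rw [Crow_eq_zero u L α β d m hmd i, zero_mul]
        refine ⟨∑ m' ∈ Finset.range (d + 1),
          Polynomial.C (∑ i, Crow u L α β d m' i * v i) * Polynomial.X ^ m', ?_, ?_, ?_⟩
        · intro hQ
          apply hβ
          have hc := congrArg (fun Q => Polynomial.coeff Q m) hQ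
          simp only [Polynomial.finsetSum_coeff, Polynomial.coeff_C_mul_X_pow,
            Polynomial.coeff_zero] at hc
          rw [Finset.sum_ite_eq] at hc
          rwa [if_pos (Finset.mem_range.mpr (Nat.lt_succ_of_le hmd))] at hc
        · refine Polynomial.natDegree_sum_le_of_forall_le _ _ fun m' hm' => ?_
          refine (Polynomial.natDegree_C_mul_X_pow_le _ _).trans ?_
          exact Nat.lt_succ_iff.mp (Finset.mem_range.mp hm')
        · intro τ
          have h1 : MvPolynomial.eval (fun p : ℕ × Fin n => genY n r r' τ p.1 p.2)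
              (valAt u L (fun q a => X (s + q, a)) d v)
              = valAt u L (fun q a => α q a + (τ : ℚ) * β q a) d v := by
            rw [← MvPolynomial.aeval_eq_eval, valAt_map]
            simp only [MvPolynomial.aeval_X]
            rw [← hα, ← hβdef]
            rfl
          rw [h1, valAt]
          simp only [rowAt_line, Algebra.algebraMap_self, RingHom.id_apply, Finset.sum_mul]
          rw [Finset.sum_comm, Polynomial.eval_finsetSum]
          refine Finset.sum_congr rfl fun m' _ => ?_
          rw [Polynomial.eval_mul, Polynomial.eval_C, Polynomial.eval_pow, Polynomial.eval_X,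
            Finset.sum_mul]
          refine Finset.sum_congr rfl fun i _ => ?_
          ring

end Vale.Agent.Lib.P314
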