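import Mathlib

/-! Definitions for black-box identity testing of noncommutative polynomials by weighted shift
matrices (P314). All statements of the stack refer to these definitions. -/

open scoped BigOperators

namespace Vale.Agent.Lib.P314

/-- Noncommutative polynomials over the rationals in `n` letters. -/
abbrev NC (n : ℕ) := FreeAlgebra ℚ (Fin n)

/-- The monomial of a word. -/
noncomputable def mono {n : ℕ} (w : List (Fin n)) : NC n := (w.map (FreeAlgebra.ι ℚ)).prod

/-- The row vector `uᵀ (∑ₐ L₀ₐ xₐ) ⋯ (∑ₐ L_{j-1,a} xₐ)` of an algebraic branching program of width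
`w`, with entries in the free algebra. -/
noncomputable def abpRow {n w : ℕ} (u : Fin w → ℚ) (L : ℕ → Fin n → Matrix (Fin w) (Fin w) ℚ) :
    ℕ → Fin w → NC n
  | 0 => fun i => algebraMap ℚ (NC n) (u i)
  | j + 1 => fun i => ∑ k, ∑ a, abpRow u L j k * FreeAlgebra.ι ℚ a * algebraMap ℚ (NC n) (L j a k i)

/-- The polynomial `uᵀ (∑ₐ L₀ₐ xₐ) ⋯ (∑ₐ L_{d-1,a} xₐ) v` of a homogeneous algebraic branching
program of width `w` and length `d`. -/
noncomputable def abp {n w : ℕ} (u : Fin w → ℚ) (L : ℕ → Fin n → Matrix (Fin w) (Fin w) ℚ) (d : ℕ)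
    (v : Fin w → ℚ) : NC n :=
  ∑ i, abpRow u L d i * algebraMap ℚ (NC n) (v i)

/-- The weighted shift matrix of the letter `a`: its only nonzero entries are `(s, s+1) ↦ y s a`. -/
def shiftTuple {n : ℕ} (D : ℕ) (y : ℕ → Fin n → ℚ) (a : Fin n) :
    Matrix (Fin (D + 1)) (Fin (D + 1)) ℚ :=
  Matrix.of fun s t => if (t : ℕ) = (s : ℕ) + 1 then y s a else 0

/-- Evaluation of a noncommutative polynomial at the weighted shift tuple with weights `y`. -/
noncomputable def evalAt {n : ℕ} (D : ℕ) (y : ℕ → Fin n → ℚ) :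
    NC n →ₐ[ℚ] Matrix (Fin (D + 1)) (Fin (D + 1)) ℚ :=
  FreeAlgebra.lift ℚ (shiftTuple D y)

/-- The prime attached to position `j` and letter `a`. -/
noncomputable def pr (n j : ℕ) (a : Fin n) : ℕ := Nat.nth Nat.Prime (j * n + a)

/-- The weights of the generator with parameters `r`, `r'`, `τ`. -/
noncomputable def genY (n r r' τ : ℕ) : ℕ → Fin n → ℚ :=
  fun j a => (pr n j a : ℚ) ^ r + (τ : ℚ) * (pr n j a : ℚ) ^ r'

/-- The value at the point `y` of the row of a branching program, in any `ℚ`-algebra. -/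
noncomputable def rowAt {R : Type*} [CommRing R] [Algebra ℚ R] {n w : ℕ} (u : Fin w → ℚ)
    (L : ℕ → Fin n → Matrix (Fin w) (Fin w) ℚ) (y : ℕ → Fin n → R) : ℕ → Fin w → R
  | 0 => fun i => algebraMap ℚ R (u i)
  | j + 1 => fun i => ∑ k, ∑ a, rowAt u L y j k * y j a * algebraMap ℚ R (L j a k i)

/-- The value at the point `y` of a branching program. -/
noncomputable def valAt {R : Type*} [CommRing R] [Algebra ℚ R] {n w : ℕ} (u : Fin w → ℚ)
    (L : ℕ → Fin n → Matrix (Fin w) (Fin w) ℚ) (y : ℕ → Fin n → R) (d : ℕ) (v : Fin w → ℚ) : R :=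
  ∑ i, rowAt u L y d i * algebraMap ℚ R (v i)

/-- The value at the point `y` of a word: `y 0 w₀ * y 1 w₁ * ⋯`. -/
def monoVal {R : Type*} [CommRing R] {n : ℕ} : (ℕ → Fin n → R) → List (Fin n) → R
  | _, [] => 1
  | y, a :: w => y 0 a * monoVal (fun q => y (q + 1)) w

/-- Coefficient of `τ ^ m` in the row at the point `α + τ β`. -/
noncomputable def Crow {R : Type*} [CommRing R] [Algebra ℚ R] {n w : ℕ} (u : Fin w → ℚ)
    (L : ℕ → Fin n → Matrix (Fin w) (Fin w) ℚ) (α : ℕ → Fin n → ℚ) (β : ℕ → Fin n → R) :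
    ℕ → ℕ → Fin w → R
  | 0, 0 => fun i => algebraMap ℚ R (u i)
  | 0, _ + 1 => fun _ => 0
  | j + 1, 0 => fun i => ∑ k, ∑ a, Crow u L α β j 0 k * algebraMap ℚ R (α j a * L j a k i)
  | j + 1, m + 1 => fun i => ∑ k, ∑ a,
      (Crow u L α β j (m + 1) k * algebraMap ℚ R (α j a * L j a k i)
        + Crow u L α β j m k * β j a * algebraMap ℚ R (L j a k i))

/-- The determinant polynomial of a space of matrices spanned by `M a`. -/
noncomputable def detPoly {n w : ℕ} (M : Fin n → Matrix (Fin w) (Fin w) ℚ) :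
    MvPolynomial (Fin n) ℚ :=
  Matrix.det (Matrix.of fun i k => ∑ a, MvPolynomial.X a * MvPolynomial.C (M a i k))

/-- At most `c` natural numbers satisfy `bad`. -/
def Few (bad : ℕ → Prop) (c : ℕ) : Prop := ∀ Z : Finset ℕ, (∀ r ∈ Z, bad r) → Z.card ≤ c

/-- The matrix of `g` at any weighted shift vanishes below the diagonal `l`, and on the diagonal `l`
it is given by the polynomials `E s`. -/
structure Lead {n : ℕ} (D : ℕ) (g : NC n) (l : ℕ) (E : ℕ → MvPolynomial (ℕ × Fin n) ℚ) : Prop where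
  band : ∀ (y : ℕ → Fin n → ℚ) (s t : Fin (D + 1)), (t : ℕ) < s + l → evalAt D y g s t = 0
  lead : ∀ (y : ℕ → Fin n → ℚ) (s t : Fin (D + 1)), (t : ℕ) = s + l →
    evalAt D y g s t = MvPolynomial.eval (fun p => y p.1 p.2) (E s)

/-- The property of a factor used in the hitting argument: for every starting position `s`, all but
`c₁` values of `r`, then all but `c₂` values of `r'`, give a nonzero polynomial in `τ` of degree at most
`l ≤ k`. -/
def HitProp {n : ℕ} (D : ℕ) (g : NC n) (k c₁ c₂ : ℕ) : Prop :=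
  ∃ l, l ≤ k ∧ ∃ E : ℕ → MvPolynomial (ℕ × Fin n) ℚ, Lead D g l E ∧ ∀ s : ℕ,
    ∃ good₁ : ℕ → Prop, Few (fun r => ¬ good₁ r) c₁ ∧ ∀ r, good₁ r →
      ∃ good₂ : ℕ → Prop, Few (fun r' => ¬ good₂ r') c₂ ∧ ∀ r', good₂ r' →
        ∃ Q : Polynomial ℚ, Q ≠ 0 ∧ Q.natDegree ≤ l ∧ ∀ τ : ℕ,
          Q.eval (τ : ℚ) = MvPolynomial.eval (fun p => genY n r r' τ p.1 p.2) (E s)

/-- The factors covered by the theorem, with their degree bound and their two costs: sums of `t`
monomials of length at most `k` (not necessarily homogeneous), and homogeneous algebraic branching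
programs of width `w` and length `d` in which every layer `∑ₐ cₐ L_{j,a}` is invertible for some
choice of the scalars `cₐ`. -/
inductive Fact {n : ℕ} : NC n → ℕ → ℕ → ℕ → Prop
  | sparse (t k : ℕ) (c : Fin t → ℚ) (w : Fin t → List (Fin n)) (hk : ∀ i, (w i).length ≤ k) :
      Fact (∑ i, c i • mono (w i)) k t 0
  | regular (w d : ℕ) (u : Fin w → ℚ) (L : ℕ → Fin n → Matrix (Fin w) (Fin w) ℚ) (v : Fin w → ℚ)
      (hreg : ∀ j < d, ∃ c : Fin n → ℚ, (∑ a, c a • L j a).det ≠ 0) :
      Fact (abp u L d v) d (d * (w.factorial * n ^ w)) ((d * n + 1) ^ (w - 1))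

end Vale.Agent.Lib.P314
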