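import Vale.Agent.Lib.P314.Sparse
import Vale.Agent.Lib.P314.Regular

/-! Main theorem of the stack: the generator hits every nonzero product of factors of class `Fact`. -/

namespace Vale.Agent.Lib.P314

theorem hit_fact {n D : ℕ} {g : NC n} {k c₁ c₂ : ℕ} (h : Fact g k c₁ c₂) (hg : g ≠ 0) :
    HitProp D g k c₁ c₂ := by
  cases h with
  | sparse t k c w hk => exact hit_sparse D _ _ c w hk hg
  | regular w d u L v hreg => exact hit_regular D _ _ u L v hreg hg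

theorem hit_list {n D : ℕ} (fs : List (NC n × ℕ × ℕ × ℕ))
    (hfs : ∀ x ∈ fs, Fact x.1 x.2.1 x.2.2.1 x.2.2.2) (hne : (fs.map (·.1)).prod ≠ 0) :
    HitProp D (fs.map (·.1)).prod (fs.map (·.2.1)).sum (fs.map (·.2.2.1)).sum
      (fs.map (·.2.2.2)).sum := by
  induction fs with
  | nil => simpa using HitProp.one D
  | cons x fs ih =>
    simp only [List.map_cons, List.prod_cons, List.sum_cons] at hne ⊢
    have h1 : x.1 ≠ 0 := left_ne_zero_of_mul hne
    have h2 : (fs.map (·.1)).prod ≠ 0 := right_ne_zero_of_mul hne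
    exact HitProp.mul (hit_fact (hfs x (by simp)) h1)
      (ih (fun y hy => hfs y (by simp [hy])) h2)

theorem main {n D B₁ B₂ : ℕ} (fs : List (NC n × ℕ × ℕ × ℕ))
    (hfs : ∀ x ∈ fs, Fact x.1 x.2.1 x.2.2.1 x.2.2.2)
    (hD : (fs.map (·.2.1)).sum ≤ D) (h₁ : (fs.map (·.2.2.1)).sum < B₁)
    (h₂ : (fs.map (·.2.2.2)).sum < B₂) (hne : (fs.map (·.1)).prod ≠ 0) :
    ∃ r, r < B₁ ∧ ∃ r', r' < B₂ ∧ ∃ τ, τ ≤ D ∧
      FreeAlgebra.lift ℚ (shiftTuple D (genY n r r' τ)) (fs.map (·.1)).prod ≠ 0 :=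
  (hit_list fs hfs hne).exists_ne hD h₁ h₂

end Vale.Agent.Lib.P314
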