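import Vale.Agent.Lib.P314.Defs

/-! MODULE Shift. Entries of the weighted shift evaluation, and naturality of the value functions under algebra
homomorphisms. All by induction on the word or on `j`. For `evalAt_abpRow`: `evalAt` is an algebra map, so the value at `abpRow (j+1)` is
`∑ k a, (value at abpRow j k) * shiftTuple D y a * scalar`, and the matrix entry `(s, t)` of `X * T` is `∑ l, X s l * T l t`, only `l` with `l = s + j`
(from the induction hypothesis) and `t = l + 1` survive; if `t = s + j + 1` is a valid index, so is `s + j`. -/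

namespace Vale.Agent.Lib.P314

/-- Left multiplication by a weighted shift of a matrix whose entries are concentrated on a
diagonal. -/
private theorem shift_mul_entry {n : ℕ} (D : ℕ) (y : ℕ → Fin n → ℚ) (a : Fin n)
    (A : Matrix (Fin (D + 1)) (Fin (D + 1)) ℚ) (m : ℕ) (V : ℕ → ℚ)
    (hA : ∀ s t : Fin (D + 1), A s t = if (t : ℕ) = s + m then V s else 0)
    (s t : Fin (D + 1)) :
    (shiftTuple D y a * A) s t =
      if (t : ℕ) = s + (m + 1) then y s a * V (s + 1) else 0 := by
  rw [Matrix.mul_apply]
  by_cases ht : (t : ℕ) = s + (m + 1)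
  · rw [if_pos ht]
    have hs : (s : ℕ) + 1 < D + 1 := by
      have := t.isLt
      omega
    rw [Finset.sum_eq_single (⟨(s : ℕ) + 1, hs⟩ : Fin (D + 1))]
    · simp only [shiftTuple, Matrix.of_apply, hA]
      rw [if_pos trivial, if_pos (by omega)]
    · intro l _ hl
      simp only [shiftTuple, Matrix.of_apply]
      rw [if_neg, zero_mul]
      intro h
      exact hl (Fin.ext h)
    · intro h
      exact absurd (Finset.mem_univ _) h
  · rw [if_neg ht]
    refine Finset.sum_eq_zero ?_
    intro l _
    simp only [shiftTuple, Matrix.of_apply, hA]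
    by_cases hl : (l : ℕ) = s + 1
    · rw [if_neg (c := (t : ℕ) = l + m), mul_zero]
      omega
    · rw [if_neg hl, zero_mul]

/-- Right multiplication by a weighted shift of a matrix whose entries are concentrated on a
diagonal. -/
private theorem mul_shift_entry {n : ℕ} (D : ℕ) (y : ℕ → Fin n → ℚ) (a : Fin n)
    (A : Matrix (Fin (D + 1)) (Fin (D + 1)) ℚ) (m : ℕ) (V : ℕ → ℚ)
    (hA : ∀ s t : Fin (D + 1), A s t = if (t : ℕ) = s + m then V s else 0)
    (s t : Fin (D + 1)) :
    (A * shiftTuple D y a) s t =
      if (t : ℕ) = s + (m + 1) then V s * y (s + m) a else 0 := by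
  rw [Matrix.mul_apply]
  by_cases ht : (t : ℕ) = s + (m + 1)
  · rw [if_pos ht]
    have hs : (s : ℕ) + m < D + 1 := by
      have := t.isLt
      omega
    rw [Finset.sum_eq_single (⟨(s : ℕ) + m, hs⟩ : Fin (D + 1))]
    · simp only [shiftTuple, Matrix.of_apply, hA]
      rw [if_pos trivial, if_pos (by omega)]
    · intro l _ hl
      rw [hA, if_neg, zero_mul]
      intro h
      exact hl (Fin.ext h)
    · intro h
      exact absurd (Finset.mem_univ _) h
  · rw [if_neg ht]
    refine Finset.sum_eq_zero ?_
    intro l _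
    simp only [shiftTuple, Matrix.of_apply, hA]
    by_cases hl : (l : ℕ) = s + m
    · rw [if_neg (c := (t : ℕ) = l + 1), mul_zero]
      omega
    · rw [if_neg hl, zero_mul]

private theorem evalAt_algebraMap {n : ℕ} (D : ℕ) (y : ℕ → Fin n → ℚ) (c : ℚ) (s t : Fin (D + 1)) :
    evalAt D y (algebraMap ℚ (NC n) c) s t = if (t : ℕ) = s + 0 then c else 0 := by
  rw [AlgHom.commutes]
  rw [Matrix.algebraMap_matrix_apply]
  by_cases h : s = t
  · subst h
    simp
  · rw [if_neg h, if_neg]
    intro h2
    exact h (Fin.ext (by simpa using h2.symm))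

private theorem mul_algebraMap_entry (D : ℕ) (X : Matrix (Fin (D + 1)) (Fin (D + 1)) ℚ) (c : ℚ)
    (s t : Fin (D + 1)) :
    (X * algebraMap ℚ (Matrix (Fin (D + 1)) (Fin (D + 1)) ℚ) c) s t = X s t * c := by
  rw [Algebra.algebraMap_eq_smul_one, Matrix.mul_smul, Matrix.mul_one, Matrix.smul_apply,
    smul_eq_mul, mul_comm]

private theorem evalAt_iota {n : ℕ} (D : ℕ) (y : ℕ → Fin n → ℚ) (a : Fin n) :
    evalAt D y (FreeAlgebra.ι ℚ a) = shiftTuple D y a := by
  simp [evalAt]

theorem evalAt_mono {n : ℕ} (D : ℕ) (y : ℕ → Fin n → ℚ) (w : List (Fin n)) (s t : Fin (D + 1)) :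
    evalAt D y (mono w) s t =
      if (t : ℕ) = s + w.length then monoVal (fun q a => y (s + q) a) w else 0 := by
  induction w generalizing s t with
  | nil =>
    have h1 : mono ([] : List (Fin n)) = algebraMap ℚ (NC n) 1 := by
      simp [mono]
    rw [h1, evalAt_algebraMap]
    simp [monoVal]
  | cons a w ih =>
    have h1 : mono (a :: w) = FreeAlgebra.ι ℚ a * mono w := by
      simp [mono]
    rw [h1, map_mul, evalAt_iota]
    rw [shift_mul_entry D y a _ w.length
      (fun s' => monoVal (fun q a => y (s' + q) a) w) (fun s' t' => ih s' t') s t]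
    simp only [List.length_cons]
    by_cases ht : (t : ℕ) = s + (w.length + 1)
    · rw [if_pos ht, if_pos ht]
      simp only [monoVal, add_zero]
      congr 2
      funext q b
      congr 1
      ring
    · rw [if_neg ht, if_neg ht]

theorem evalAt_abpRow {n w : ℕ} (D : ℕ) (y : ℕ → Fin n → ℚ) (u : Fin w → ℚ)
    (L : ℕ → Fin n → Matrix (Fin w) (Fin w) ℚ) (j : ℕ) (i : Fin w) (s t : Fin (D + 1)) :
    evalAt D y (abpRow u L j i) s t =
      if (t : ℕ) = s + j then rowAt u L (fun q a => y (s + q) a) j i else 0 := by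
  induction j generalizing i s t with
  | zero =>
    simp only [abpRow, rowAt]
    rw [evalAt_algebraMap]
    simp
  | succ j ih =>
    simp only [abpRow, rowAt]
    rw [map_sum, Matrix.sum_apply]
    by_cases ht : (t : ℕ) = s + (j + 1)
    · rw [if_pos ht]
      refine Finset.sum_congr rfl ?_
      intro k _
      rw [map_sum, Matrix.sum_apply]
      refine Finset.sum_congr rfl ?_
      intro a _
      rw [map_mul, map_mul, evalAt_iota, AlgHom.commutes]
      rw [mul_algebraMap_entry]
      rw [mul_shift_entry D y a _ j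
        (fun s' => rowAt u L (fun q a => y (s' + q) a) j k) (fun s' t' => ih k s' t') s t]
      rw [if_pos ht]
      simp only [Algebra.algebraMap_self, RingHom.id_apply]
    · rw [if_neg ht]
      refine Finset.sum_eq_zero ?_
      intro k _
      rw [map_sum, Matrix.sum_apply]
      refine Finset.sum_eq_zero ?_
      intro a _
      rw [map_mul, map_mul, evalAt_iota, AlgHom.commutes]
      rw [mul_algebraMap_entry]
      rw [mul_shift_entry D y a _ j
        (fun s' => rowAt u L (fun q a => y (s' + q) a) j k) (fun s' t' => ih k s' t') s t]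
      rw [if_neg ht]
      simp

theorem evalAt_abp {n w : ℕ} (D : ℕ) (y : ℕ → Fin n → ℚ) (u : Fin w → ℚ)
    (L : ℕ → Fin n → Matrix (Fin w) (Fin w) ℚ) (d : ℕ) (v : Fin w → ℚ) (s t : Fin (D + 1)) :
    evalAt D y (abp u L d v) s t =
      if (t : ℕ) = s + d then valAt u L (fun q a => y (s + q) a) d v else 0 := by
  simp only [abp, valAt]
  rw [map_sum, Matrix.sum_apply]
  by_cases ht : (t : ℕ) = s + d
  · rw [if_pos ht]
    refine Finset.sum_congr rfl ?_
    intro i _
    rw [map_mul, AlgHom.commutes]
    rw [mul_algebraMap_entry, evalAt_abpRow, if_pos ht]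
    simp only [Algebra.algebraMap_self, RingHom.id_apply]
  · rw [if_neg ht]
    refine Finset.sum_eq_zero ?_
    intro i _
    rw [map_mul, AlgHom.commutes]
    rw [mul_algebraMap_entry, evalAt_abpRow, if_neg ht]
    simp

theorem monoVal_map {R R' : Type*} [CommRing R] [CommRing R'] (φ : R →+* R') {n : ℕ}
    (y : ℕ → Fin n → R) (w : List (Fin n)) :
    φ (monoVal y w) = monoVal (fun q a => φ (y q a)) w := by
  induction w generalizing y with
  | nil => simp [monoVal]
  | cons a w ih =>
    simp only [monoVal]
    rw [map_mul, ih]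

theorem rowAt_map {R R' : Type*} [CommRing R] [CommRing R'] [Algebra ℚ R] [Algebra ℚ R']
    (φ : R →ₐ[ℚ] R') {n w : ℕ} (u : Fin w → ℚ) (L : ℕ → Fin n → Matrix (Fin w) (Fin w) ℚ)
    (y : ℕ → Fin n → R) (j : ℕ) (i : Fin w) :
    φ (rowAt u L y j i) = rowAt u L (fun q a => φ (y q a)) j i := by
  induction j generalizing i with
  | zero =>
    simp only [rowAt]
    exact AlgHom.commutes φ _
  | succ j ih =>
    simp only [rowAt]
    rw [map_sum]
    refine Finset.sum_congr rfl ?_
    intro k _
    rw [map_sum]
    refine Finset.sum_congr rfl ?_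
    intro a _
    rw [map_mul, map_mul, ih, AlgHom.commutes]

theorem valAt_map {R R' : Type*} [CommRing R] [CommRing R'] [Algebra ℚ R] [Algebra ℚ R']
    (φ : R →ₐ[ℚ] R') {n w : ℕ} (u : Fin w → ℚ) (L : ℕ → Fin n → Matrix (Fin w) (Fin w) ℚ)
    (y : ℕ → Fin n → R) (d : ℕ) (v : Fin w → ℚ) :
    φ (valAt u L y d v) = valAt u L (fun q a => φ (y q a)) d v := by
  simp only [valAt]
  rw [map_sum]
  refine Finset.sum_congr rfl ?_
  intro i _
  rw [map_mul, rowAt_map, AlgHom.commutes]

theorem Crow_map {R R' : Type*} [CommRing R] [CommRing R'] [Algebra ℚ R] [Algebra ℚ R']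
    (φ : R →ₐ[ℚ] R') {n w : ℕ} (u : Fin w → ℚ) (L : ℕ → Fin n → Matrix (Fin w) (Fin w) ℚ)
    (α : ℕ → Fin n → ℚ) (β : ℕ → Fin n → R) (j m : ℕ) (i : Fin w) :
    φ (Crow u L α β j m i) = Crow u L α (fun q a => φ (β q a)) j m i := by
  induction j generalizing m i with
  | zero =>
    cases m with
    | zero =>
      simp only [Crow]
      exact AlgHom.commutes φ _
    | succ m =>
      simp only [Crow]
      exact map_zero φ
  | succ j ih =>
    cases m with
    | zero =>
      simp only [Crow]
      rw [map_sum]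
      refine Finset.sum_congr rfl ?_
      intro k _
      rw [map_sum]
      refine Finset.sum_congr rfl ?_
      intro a _
      rw [map_mul, ih, AlgHom.commutes]
    | succ m =>
      simp only [Crow]
      rw [map_sum]
      refine Finset.sum_congr rfl ?_
      intro k _
      rw [map_sum]
      refine Finset.sum_congr rfl ?_
      intro a _
      simp only [map_add, map_mul, ih, AlgHom.commutes]

end Vale.Agent.Lib.P314
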