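import Vale.Agent.Lib.P314.Shift
import Vale.Agent.Lib.P314.Hit
import Vale.Agent.Lib.P314.ExpSum

/-! MODULE Sparse. A sum of `t` monomials. Paper proof. `g = ∑ i, c i • mono (w i)`. Put `Gl l s = ∑ i with (w i).length = l, C (c i) * monoVal (fun q a => X (s + q, a)) (w i)` (polynomial in `MvPolynomial (ℕ × Fin n) ℚ`),
`monoVal ... w = monomial (exponent s w) 1` with exponent `∑_q single (s + q, w_q)`, injective in `w` (the support determines length and letters). If `Gl l 0 = 0` for all `l`, then for each word `w₀` the coefficient at the exponent of `w₀` gives `∑_{i : w i = w₀} c i = 0`, so `g = ∑_{w₀} (∑_{i : w i = w₀} c i) • mono w₀ = 0` (Finset.sum_fiberwise).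
So if `g ≠ 0` take the least `l` with `Gl l 0 ≠ 0`; `l ≤ k` since terms have length `≤ k`. `Gl l s` is a rename of `Gl l 0` under the injective map `(q, a) ↦ (s + q, a)`, so `Gl l' s = 0` for `l' < l` and `Gl l s ≠ 0`. `E s = Gl l s`. `Lead`: by `evalAt_mono` the entry `(s, t)` of `g` is `eval (Gl (t - s) s)` when `t ≥ s` and `0` otherwise (`monoVal_map`).
Hit: `good₁ r := eval (fun p => (pr n p.1 p.2 : ℚ) ^ r) (E s) ≠ 0`, `Few` with `c₁ = t` by `few_zeros` (support of `E s` has at most `t` elements, `MvPolynomial.support_sum`, each term a monomial). `good₂ := True`, `c₂ = 0`. `Q` from `exists_linePoly`, `totalDegree (E s) ≤ l`. `Q ≠ 0` since `Q.eval 0 ≠ 0` (`genY` at `τ = 0` is `pr ^ r`). -/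

open MvPolynomial

namespace Vale.Agent.Lib.P314

namespace SparseAux

variable {n : ℕ}

/-- The exponent vector of a word placed at position `s`. -/
noncomputable def expo : ℕ → List (Fin n) → (ℕ × Fin n) →₀ ℕ
  | _, [] => 0
  | s, a :: w => Finsupp.single (s, a) 1 + expo (s + 1) w

theorem expo_apply_lt (s : ℕ) (w : List (Fin n)) (p : ℕ × Fin n) (hp : p.1 < s) :
    expo s w p = 0 := by
  induction w generalizing s with
  | nil => simp [expo]
  | cons a w ih =>
    have h1 : ((s, a) : ℕ × Fin n) ≠ p := by
      rintro rfl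
      exact lt_irrefl _ hp
    simp [expo, h1, ih (s + 1) (by omega)]

theorem expo_inj (s : ℕ) (w w' : List (Fin n)) (h : expo s w = expo s w') : w = w' := by
  induction w generalizing s w' with
  | nil =>
    cases w' with
    | nil => rfl
    | cons b v =>
      exfalso
      have := DFunLike.congr_fun h (s, b)
      simp [expo] at this
      omega
  | cons a u ih =>
    cases w' with
    | nil =>
      exfalso
      have := DFunLike.congr_fun h (s, a)
      simp [expo] at this
    | cons b v =>
      have hab : a = b := by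
        have := DFunLike.congr_fun h (s, a)
        have h1 : expo (s + 1) u (s, a) = 0 := expo_apply_lt _ _ _ (by simp)
        have h2 : expo (s + 1) v (s, a) = 0 := expo_apply_lt _ _ _ (by simp)
        simp only [expo, Finsupp.add_apply, h1, h2, Finsupp.single_apply] at this
        by_contra hne
        have hne' : ¬ ((s, b) : ℕ × Fin n) = (s, a) := by
          intro h'
          exact hne (by simpa using (Prod.ext_iff.mp h').2.symm)
        simp [hne'] at this
      subst hab
      have h3 : expo (s + 1) u = expo (s + 1) v := by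
        simpa [expo] using h
      rw [ih (s + 1) v h3]

theorem expo_sum (s : ℕ) (w : List (Fin n)) :
    (expo s w).sum (fun _ e => e) = w.length := by
  induction w generalizing s with
  | nil => simp [expo]
  | cons a w ih =>
    simp only [expo, List.length_cons]
    rw [Finsupp.sum_add_index' (by simp) (by simp)]
    rw [ih, Finsupp.sum_single_index rfl]
    omega

/-- The generic monomial at position `s`. -/
noncomputable def mv (s : ℕ) (w : List (Fin n)) : MvPolynomial (ℕ × Fin n) ℚ :=
  monoVal (fun q a => X (s + q, a)) w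

theorem mv_eq (s : ℕ) (w : List (Fin n)) : mv s w = monomial (expo s w) 1 := by
  induction w generalizing s with
  | nil => simp [mv, monoVal, expo]
  | cons a w ih =>
    have h : (fun q (a : Fin n) => (X (s + (q + 1), a) : MvPolynomial (ℕ × Fin n) ℚ))
        = fun q a => X (s + 1 + q, a) := by
      funext q a
      congr 2
      omega
    have h2 := ih (s + 1)
    unfold mv at h2 ⊢
    simp only [monoVal, add_zero]
    rw [h, h2, expo, X, monomial_mul, one_mul]

theorem eval_mv (y : ℕ → Fin n → ℚ) (s : ℕ) (w : List (Fin n)) :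
    eval (fun p : ℕ × Fin n => y p.1 p.2) (mv s w) = monoVal (fun q a => y (s + q) a) w := by
  unfold mv
  rw [show eval (fun p : ℕ × Fin n => y p.1 p.2)
      (monoVal (fun q a => X (s + q, a)) w)
      = (eval (fun p : ℕ × Fin n => y p.1 p.2)) (monoVal (fun q a => X (s + q, a)) w) from rfl]
  rw [monoVal_map]
  simp

theorem rename_mv (s : ℕ) (w : List (Fin n)) :
    rename (fun p : ℕ × Fin n => (s + p.1, p.2)) (mv 0 w) = mv s w := by
  unfold mv
  have := monoVal_map (rename (R := ℚ) (fun p : ℕ × Fin n => (s + p.1, p.2))).toRingHom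
    (fun q (a : Fin n) => (X (0 + q, a) : MvPolynomial (ℕ × Fin n) ℚ)) w
  simp only [AlgHom.toRingHom_eq_coe, RingHom.coe_coe, rename_X, zero_add] at this
  simpa using this

variable {t : ℕ} (c : Fin t → ℚ) (w : Fin t → List (Fin n))

open Classical in
/-- The part of length `l` at position `s`. -/
noncomputable def Gl (l s : ℕ) : MvPolynomial (ℕ × Fin n) ℚ :=
  ∑ i ∈ Finset.univ.filter (fun i => (w i).length = l), monomial (expo s (w i)) (c i)

theorem Gl_eq (l s : ℕ) : Gl c w l s
    = ∑ i ∈ Finset.univ.filter (fun i => (w i).length = l), C (c i) * mv s (w i) := by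
  classical
  unfold Gl
  refine Finset.sum_congr (by congr) fun i _ => ?_
  rw [mv_eq, C_mul_monomial, mul_one]

theorem rename_Gl (l s : ℕ) :
    rename (fun p : ℕ × Fin n => (s + p.1, p.2)) (Gl c w l 0) = Gl c w l s := by
  classical
  rw [Gl_eq, Gl_eq, map_sum]
  refine Finset.sum_congr rfl fun i _ => ?_
  rw [map_mul, rename_C, rename_mv]

theorem rename_inj (s : ℕ) :
    Function.Injective (fun p : ℕ × Fin n => (s + p.1, p.2)) := by
  rintro ⟨a, b⟩ ⟨a', b'⟩ h
  simp only [Prod.mk.injEq, add_right_inj] at h
  exact Prod.ext h.1 h.2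

theorem Gl_eq_zero_iff (l s : ℕ) : Gl c w l s = 0 ↔ Gl c w l 0 = 0 := by
  rw [← rename_Gl]
  constructor
  · intro h
    exact rename_injective _ (rename_inj s) (by rw [h, map_zero])
  · intro h
    rw [h, map_zero]

theorem eval_Gl (y : ℕ → Fin n → ℚ) (l s : ℕ) :
    eval (fun p : ℕ × Fin n => y p.1 p.2) (Gl c w l s)
      = ∑ i ∈ Finset.univ.filter (fun i => (w i).length = l),
          c i * monoVal (fun q a => y (s + q) a) (w i) := by
  classical
  rw [Gl_eq, map_sum]
  refine Finset.sum_congr rfl fun i _ => ?_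
  rw [map_mul, eval_C, eval_mv]

theorem support_Gl (l s : ℕ) : (Gl c w l s).support.card ≤ t := by
  classical
  have hsub : (Gl c w l s).support ⊆ Finset.univ.image (fun i => expo s (w i)) := by
    intro m hm
    have h1 := support_sum hm
    obtain ⟨i, _, hi⟩ := Finset.mem_biUnion.mp h1
    have h2 := support_monomial_subset hi
    rw [Finset.mem_singleton] at h2
    exact Finset.mem_image.mpr ⟨i, Finset.mem_univ _, h2.symm⟩
  calc (Gl c w l s).support.card ≤ (Finset.univ.image (fun i => expo s (w i))).card :=
        Finset.card_le_card hsub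
    _ ≤ (Finset.univ : Finset (Fin t)).card := Finset.card_image_le
    _ = t := by simp

theorem totalDegree_Gl (l s : ℕ) : (Gl c w l s).totalDegree ≤ l := by
  classical
  unfold Gl
  refine (totalDegree_finsetSum _ _).trans (Finset.sup_le fun i hi => ?_)
  refine (totalDegree_monomial_le _ _).trans ?_
  exact (expo_sum s (w i)).le.trans (Finset.mem_filter.mp hi).2.le

/-- Vanishing of all homogeneous parts forces the sum to vanish. -/
theorem sum_eq_zero_of_Gl (h : ∀ l, Gl c w l 0 = 0) : (∑ i, c i • mono (w i)) = 0 := by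
  classical
  have hcoef : ∀ w₀ : List (Fin n),
      ∑ i ∈ Finset.univ.filter (fun i => w i = w₀), c i = 0 := by
    intro w₀
    have h0 := congrArg (coeff (expo 0 w₀)) (h w₀.length)
    unfold Gl at h0
    rw [coeff_sum, coeff_zero] at h0
    rw [← h0]
    have hterm : ∀ i, coeff (expo 0 w₀) (monomial (expo 0 (w i)) (c i))
        = if w i = w₀ then c i else 0 := by
      intro i
      rw [coeff_monomial]
      by_cases hi : w i = w₀
      · simp [hi]
      · have : expo 0 (w i) ≠ expo 0 w₀ := fun h' => hi (expo_inj _ _ _ h')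
        simp [hi, this]
    simp only [hterm]
    rw [Finset.sum_ite, Finset.sum_const_zero, add_zero, Finset.filter_filter]
    refine Finset.sum_congr ?_ fun _ _ => rfl
    ext i
    simp only [Finset.mem_filter, Finset.mem_univ, true_and]
    constructor
    · intro hi
      exact ⟨by rw [hi], hi⟩
    · intro hi
      exact hi.2
  have hfib := Finset.sum_fiberwise_of_maps_to (s := Finset.univ)
    (t := Finset.univ.image w) (g := w) (f := fun i => c i • mono (w i))
    (fun i _ => Finset.mem_image_of_mem _ (Finset.mem_univ i))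
  rw [← hfib]
  refine Finset.sum_eq_zero fun w₀ _ => ?_
  have : ∀ i ∈ Finset.univ.filter (fun i => w i = w₀), c i • mono (w i) = c i • mono w₀ := by
    intro i hi
    rw [(Finset.mem_filter.mp hi).2]
  rw [Finset.sum_congr rfl this, ← Finset.sum_smul, hcoef, zero_smul]

/-- The matrix entries in terms of the homogeneous parts. -/
theorem evalAt_sum_entry (D : ℕ) (y : ℕ → Fin n → ℚ) (s t' : Fin (D + 1)) (l : ℕ)
    (hl : (t' : ℕ) = s + l) :
    evalAt D y (∑ i, c i • mono (w i)) s t'
      = eval (fun p : ℕ × Fin n => y p.1 p.2) (Gl c w l s) := by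
  classical
  rw [eval_Gl, map_sum, Matrix.sum_apply, Finset.sum_filter]
  refine Finset.sum_congr rfl fun i _ => ?_
  rw [map_smul, Matrix.smul_apply, evalAt_mono, smul_eq_mul]
  by_cases hi : (w i).length = l
  · rw [if_pos (by rw [hl, hi]), if_pos hi]
  · rw [if_neg (by rw [hl]; omega), if_neg hi, mul_zero]

theorem evalAt_sum_entry_lt (D : ℕ) (y : ℕ → Fin n → ℚ) (s t' : Fin (D + 1))
    (hl : (t' : ℕ) < s) :
    evalAt D y (∑ i, c i • mono (w i)) s t' = 0 := by
  classical
  rw [map_sum, Matrix.sum_apply]
  refine Finset.sum_eq_zero fun i _ => ?_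
  rw [map_smul, Matrix.smul_apply, evalAt_mono, if_neg (by omega), smul_zero]

end SparseAux

open SparseAux in
theorem hit_sparse {n : ℕ} (D t k : ℕ) (c : Fin t → ℚ) (w : Fin t → List (Fin n))
    (hk : ∀ i, (w i).length ≤ k) (hg : (∑ i, c i • mono (w i)) ≠ 0) :
    HitProp D (∑ i, c i • mono (w i)) k t 0 := by
  classical
  have hex : ∃ l, Gl c w l 0 ≠ 0 := by
    by_contra hcon
    push Not at hcon
    exact hg (sum_eq_zero_of_Gl c w hcon)
  let l := Nat.find hex
  have hl : Gl c w l 0 ≠ 0 := Nat.find_spec hex
  have hmin : ∀ l' < l, Gl c w l' 0 = 0 := fun l' hl' => by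
    have := Nat.find_min hex hl'
    simpa using this
  have hlk : l ≤ k := by
    by_contra hcon
    apply hl
    unfold Gl
    refine Finset.sum_eq_zero fun i hi => ?_
    exfalso
    have := (Finset.mem_filter.mp hi).2
    have := hk i
    omega
  refine ⟨l, hlk, fun s => Gl c w l s, ⟨?_, ?_⟩, ?_⟩
  · intro y s t' hlt
    by_cases hst : (t' : ℕ) < s
    · exact evalAt_sum_entry_lt c w D y s t' hst
    · rw [evalAt_sum_entry c w D y s t' ((t' : ℕ) - s) (by omega)]
      rw [(Gl_eq_zero_iff c w _ _).mpr (hmin _ (by omega)), map_zero]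
  · intro y s t' hlt
    exact evalAt_sum_entry c w D y s t' l hlt
  · intro s
    have hEs : Gl c w l s ≠ 0 := fun h => hl ((Gl_eq_zero_iff c w _ _).mp h)
    refine ⟨fun r => eval (fun p : ℕ × Fin n => ((pr n p.1 p.2 : ℕ) : ℚ) ^ r) (Gl c w l s) ≠ 0,
      ?_, fun r hr => ⟨fun _ => True, ?_, fun r' _ => ?_⟩⟩
    · have hP : ∀ p : ℕ × Fin n, (pr n p.1 p.2).Prime := fun p => pr_prime _ _ _
      have hinj : Function.Injective (fun p : ℕ × Fin n => pr n p.1 p.2) := by
        rintro ⟨a, b⟩ ⟨a', b'⟩ h
        obtain ⟨h1, h2⟩ := pr_inj h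
        exact Prod.ext h1 h2
      have := few_zeros (fun p : ℕ × Fin n => pr n p.1 p.2) hP hinj (Gl c w l s) hEs
      refine this.mono (fun r hr => ?_) ((Nat.sub_le _ _).trans (support_Gl c w l s))
      simpa using hr
    · intro Z hZ
      have : Z = ∅ := by
        apply Finset.eq_empty_of_forall_notMem
        intro r hr
        exact hZ r hr trivial
      simp [this]
    · obtain ⟨Q, hQd, hQe⟩ := exists_linePoly (Gl c w l s)
        (fun p : ℕ × Fin n => ((pr n p.1 p.2 : ℕ) : ℚ) ^ r)
        (fun p : ℕ × Fin n => ((pr n p.1 p.2 : ℕ) : ℚ) ^ r')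
      refine ⟨Q, ?_, hQd.trans (totalDegree_Gl c w l s), fun τ => ?_⟩
      · intro h0
        have := hQe 0
        rw [h0] at this
        simp only [Polynomial.eval_zero, zero_mul, add_zero] at this
        exact hr this.symm
      · rw [hQe]
        rfl

end Vale.Agent.Lib.P314
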